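import Mathlib

/-!
# P231, Stage 3 (`OP²`): certificates that a quartic `F² - G` is not a square

`F = fa M² + fb M + fc`, `G = ga M² + gb M + gc`; on an interval `[a, b]` the number `F² - G` lies
strictly between the squares of `F - m` and `F - m + 1`.
-/

namespace Vale.Agent.P231.S3NT

/-- the coefficients of `F` and `G` -/
structure Co where
  fa : ℤ
  fb : ℤ
  fc : ℤ
  ga : ℤ
  gb : ℤ
  gc : ℤ

namespace Co

def F (c : Co) (M : ℤ) : ℤ := c.fa * M ^ 2 + c.fb * M + c.fc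
def G (c : Co) (M : ℤ) : ℤ := c.ga * M ^ 2 + c.gb * M + c.gc
def D (c : Co) (M : ℤ) : ℤ := (c.F M) ^ 2 - c.G M

/-- `M ↦ -M` -/
def neg (c : Co) : Co := ⟨c.fa, -c.fb, c.fc, c.ga, -c.gb, c.gc⟩

theorem D_neg (c : Co) (M : ℤ) : c.neg.D M = c.D (-M) := by
  simp only [D, F, G, neg]; ring

def qa (c : Co) (m : ℤ) : ℤ := 2 * m * c.fa - c.ga
def qb (c : Co) (m : ℤ) : ℤ := 2 * m * c.fb - c.gb
def qc (c : Co) (m : ℤ) : ℤ := 2 * m * c.fc - m ^ 2 - c.gc

theorem D_sub (c : Co) (M m : ℤ) :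
    c.D M - (c.F M - m) ^ 2 = c.qa m * M ^ 2 + c.qb m * M + c.qc m := by
  simp only [D, F, G, qa, qb, qc]; ring

end Co

/-- certificate that a quadratic polynomial is positive on `[a, b]` -/
def posOn (α β γ a b : ℤ) : Bool :=
  decide (0 < α * a ^ 2 + β * a + γ) && decide (0 < α * b ^ 2 + β * b + γ) &&
    (decide (α ≤ 0) || decide (0 ≤ 2 * α * a + β) || decide (2 * α * b + β ≤ 0))

theorem concave_pos {α β γ a b x : ℤ} (hα : α ≤ 0) (h1 : 0 < α * a ^ 2 + β * a + γ)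
    (h2 : 0 < α * b ^ 2 + β * b + γ) (hax : a ≤ x) (hxb : x ≤ b) :
    0 < α * x ^ 2 + β * x + γ := by
  rcases eq_or_lt_of_le hax with rfl | hax'
  · exact h1
  rcases eq_or_lt_of_le hxb with rfl | hxb'
  · exact h2
  have key : (b - a) * (α * x ^ 2 + β * x + γ) =
      (b - x) * (α * a ^ 2 + β * a + γ) + (x - a) * (α * b ^ 2 + β * b + γ)
        - α * ((b - x) * (x - a) * (b - a)) := by ring
  have hpos : 0 < (b - a) * (α * x ^ 2 + β * x + γ) := by
    rw [key]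
    have e1 : 0 < (b - x) * (α * a ^ 2 + β * a + γ) := mul_pos (by linarith) h1
    have e2 : 0 < (x - a) * (α * b ^ 2 + β * b + γ) := mul_pos (by linarith) h2
    have e3 : 0 ≤ (b - x) * (x - a) * (b - a) :=
      mul_nonneg (mul_nonneg (by linarith) (by linarith)) (by linarith)
    have e4 : α * ((b - x) * (x - a) * (b - a)) ≤ 0 := mul_nonpos_of_nonpos_of_nonneg hα e3
    linarith
  exact (mul_pos_iff_of_pos_left (by linarith)).1 hpos

theorem posOn_spec {α β γ a b x : ℤ} (h : posOn α β γ a b = true) (hax : a ≤ x) (hxb : x ≤ b) :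
    0 < α * x ^ 2 + β * x + γ := by
  simp only [posOn, Bool.and_eq_true, Bool.or_eq_true, decide_eq_true_eq] at h
  obtain ⟨⟨h1, h2⟩, h3⟩ := h
  by_cases hα : α ≤ 0
  · exact concave_pos hα h1 h2 hax hxb
  push Not at hα
  rcases h3 with (h3 | h3) | h3
  · exact absurd h3 (by omega)
  · have : α * x ^ 2 + β * x + γ = (α * a ^ 2 + β * a + γ) + (x - a) * (2 * α * a + β)
        + α * (x - a) ^ 2 := by ring
    rw [this]
    have e1 : 0 ≤ (x - a) * (2 * α * a + β) := mul_nonneg (by linarith) h3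
    have e2 : 0 ≤ α * (x - a) ^ 2 := mul_nonneg hα.le (sq_nonneg _)
    linarith
  · have : α * x ^ 2 + β * x + γ = (α * b ^ 2 + β * b + γ) + (b - x) * (-(2 * α * b + β))
        + α * (b - x) ^ 2 := by ring
    rw [this]
    have e1 : 0 ≤ (b - x) * (-(2 * α * b + β)) := mul_nonneg (by linarith) (by linarith)
    have e2 : 0 ≤ α * (b - x) ^ 2 := mul_nonneg hα.le (sq_nonneg _)
    linarith

/-- certificate that a quadratic polynomial is positive on `[a, ∞)` -/
def posTail (α β γ a : ℤ) : Bool :=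
  decide (0 ≤ α) && decide (0 ≤ 2 * α * a + β) && decide (0 < α * a ^ 2 + β * a + γ)

theorem posTail_spec {α β γ a x : ℤ} (h : posTail α β γ a = true) (hax : a ≤ x) :
    0 < α * x ^ 2 + β * x + γ := by
  simp only [posTail, Bool.and_eq_true, decide_eq_true_eq] at h
  obtain ⟨⟨h1, h2⟩, h3⟩ := h
  have : α * x ^ 2 + β * x + γ = (α * a ^ 2 + β * a + γ) + (x - a) * (2 * α * a + β)
      + α * (x - a) ^ 2 := by ring
  rw [this]
  have e1 : 0 ≤ (x - a) * (2 * α * a + β) := mul_nonneg (by linarith) h2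
  have e2 : 0 ≤ α * (x - a) ^ 2 := mul_nonneg h1 (sq_nonneg _)
  linarith

/-- no square between consecutive squares -/
theorem not_sq {D G : ℤ} (_ : 0 ≤ G) (h1 : 0 < D - G ^ 2) (h2 : 0 < (G + 1) ^ 2 - D) :
    ¬ IsSquare D := by
  rintro ⟨s, rfl⟩
  have h3 : G ^ 2 < |s| ^ 2 := by rw [sq_abs]; nlinarith
  have h4 : |s| ^ 2 < (G + 1) ^ 2 := by rw [sq_abs]; nlinarith
  have h5 : G < |s| := lt_of_pow_lt_pow_left₀ 2 (abs_nonneg s) h3
  have h6 : |s| < G + 1 := lt_of_pow_lt_pow_left₀ 2 (by linarith) h4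
  omega

theorem not_sq_of (c : Co) {M m : ℤ} (q1 : 0 < c.qa m * M ^ 2 + c.qb m * M + c.qc m)
    (q2 : 0 < (-c.qa (m - 1)) * M ^ 2 + (-c.qb (m - 1)) * M + (-c.qc (m - 1)))
    (q3 : 0 < c.fa * M ^ 2 + c.fb * M + (c.fc - m + 1)) : ¬ IsSquare (c.D M) := by
  have e1 := c.D_sub M m
  have e2 := c.D_sub M (m - 1)
  refine not_sq (G := c.F M - m) ?_ ?_ ?_
  · simp only [Co.F]; linarith
  · rw [e1]; exact q1
  · have : (c.F M - m + 1) = c.F M - (m - 1) := by ring
    rw [this]; linarith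

/-- a row `(a, b, m)` of the table: either an interval certificate, or `a = b` and `D a < 0`, or
`a = b` is in the list `sk` -/
def rowOk (c : Co) (sk : List ℤ) (r : ℤ × ℤ × ℤ) : Bool :=
  (posOn (c.qa r.2.2) (c.qb r.2.2) (c.qc r.2.2) r.1 r.2.1 &&
  posOn (-c.qa (r.2.2 - 1)) (-c.qb (r.2.2 - 1)) (-c.qc (r.2.2 - 1)) r.1 r.2.1 &&
  posOn c.fa c.fb (c.fc - r.2.2 + 1) r.1 r.2.1) ||
  (decide (r.1 = r.2.1) && (decide (c.D r.1 < 0) || decide (r.1 ∈ sk)))

theorem rowOk_spec {c : Co} {sk : List ℤ} {r : ℤ × ℤ × ℤ} (h : rowOk c sk r = true) {M : ℤ}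
    (h1 : r.1 ≤ M) (h2 : M ≤ r.2.1) (hs : IsSquare (c.D M)) : M ∈ sk := by
  simp only [rowOk, Bool.or_eq_true, Bool.and_eq_true, decide_eq_true_eq] at h
  rcases h with ⟨⟨p1, p2⟩, p3⟩ | ⟨h3, h4⟩
  · exact absurd hs (not_sq_of c (posOn_spec p1 h1 h2) (posOn_spec p2 h1 h2)
      (posOn_spec p3 h1 h2))
  · have hM : M = r.1 := by omega
    rcases h4 with h4 | h4
    · rw [← hM] at h4
      exact absurd hs.nonneg (by omega)
    · rw [hM]; exact h4

/-- the table covers `[lo, hi]` -/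
def cover (c : Co) (sk : List ℤ) : List (ℤ × ℤ × ℤ) → ℤ → ℤ → Bool
  | [], lo, hi => decide (hi < lo)
  | r :: l, lo, hi => decide (r.1 ≤ lo) && rowOk c sk r && cover c sk l (r.2.1 + 1) hi

theorem cover_spec {c : Co} {sk : List ℤ} : ∀ {l : List (ℤ × ℤ × ℤ)} {lo hi : ℤ},
    cover c sk l lo hi = true → ∀ {M : ℤ}, lo ≤ M → M ≤ hi → IsSquare (c.D M) → M ∈ sk
  | [], lo, hi, h, M, h1, h2 => by
      simp only [cover, decide_eq_true_eq] at h
      omega
  | r :: l, lo, hi, h, M, h1, h2 => by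
      simp only [cover, Bool.and_eq_true, decide_eq_true_eq] at h
      obtain ⟨⟨p1, p2⟩, p3⟩ := h
      intro hs
      rcases le_or_gt M r.2.1 with h3 | h3
      · exact rowOk_spec p2 (p1.trans h1) h3 hs
      · exact cover_spec p3 (by omega) h2 hs

/-- the tail -/
def tailOk (c : Co) (a m : ℤ) : Bool :=
  posTail (c.qa m) (c.qb m) (c.qc m) a &&
  posTail (-c.qa (m - 1)) (-c.qb (m - 1)) (-c.qc (m - 1)) a &&
  posTail c.fa c.fb (c.fc - m + 1) a

theorem tailOk_spec {c : Co} {a m : ℤ} (h : tailOk c a m = true) {M : ℤ} (h1 : a ≤ M) :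
    ¬ IsSquare (c.D M) := by
  simp only [tailOk, Bool.and_eq_true] at h
  obtain ⟨⟨p1, p2⟩, p3⟩ := h
  exact not_sq_of c (posTail_spec p1 h1) (posTail_spec p2 h1) (posTail_spec p3 h1)

/-- the two coefficient families: `16` times the discriminant of the level two relation,
`α = j / 2`, relative sign `+` -/
def cp (j : ℤ) : Co := ⟨21, 192, -510 * j, -32736 * j, -196704 * j, 884736 * j⟩
/-- relative sign `-` -/
def cm (j : ℤ) : Co := ⟨149, -192, -510 * j, 229344 * j, -982944 * j, 884736 * j⟩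

theorem cp_D (j M : ℤ) : (cp j).D M =
    (21 * M ^ 2 + 192 * M - 510 * j) ^ 2 - 96 * j * (3 - M) * (3072 + 341 * M) := by
  simp only [Co.D, Co.F, Co.G, cp]; ring

theorem cm_D (j M : ℤ) : (cm j).D M =
    (149 * M ^ 2 - 192 * M - 510 * j) ^ 2 - 96 * j * (3 - M) * (3072 - 2389 * M) := by
  simp only [Co.D, Co.F, Co.G, cm]; ring

end Vale.Agent.P231.S3NT
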