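import Vale.Agent.P231.S3NT.Base

/-! Certificate tables: sign `-`, `j = -1`. -/

namespace Vale.Agent.P231.S3NT

def t_mn1_P0 : List (ℤ × ℤ × ℤ) := [
  (0, 0, -559), (1, 1, -123), (2, 2, 125), (3, 3, 0),
  (4, 4, -141), (5, 5, -250), (6, 6, -331), (7, 7, -393),
  (8, 8, -440), (9, 9, -478), (10, 10, -508), (11, 11, -533),
  (12, 12, -554), (13, 13, -572), (14, 14, -587), (15, 15, -599),
  (16, 16, -611), (17, 17, -621), (18, 18, -629), (19, 19, -637),
  (20, 20, -644), (21, 21, -650), (22, 22, -656), (23, 23, -661),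
  (24, 24, -666), (25, 25, -670), (26, 26, -674), (27, 27, -678),
  (28, 28, -682), (29, 29, -685), (30, 30, -688), (31, 31, -690),
  (32, 32, -693), (33, 33, -695), (34, 34, -698), (35, 35, -700),
  (36, 36, -702), (37, 37, -704), (38, 38, -705), (39, 39, -707),
  (40, 40, -709), (41, 41, -710), (42, 42, -712), (43, 43, -713),
  (44, 44, -714), (45, 45, -716), (46, 46, -717), (47, 47, -718),
  (48, 48, -719), (49, 49, -720), (50, 50, -721), (51, 51, -722),
  (52, 52, -723), (53, 53, -724), (54, 54, -725), (55, 55, -726),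
  (56, 57, -727), (58, 58, -728), (59, 60, -729), (61, 61, -730),
  (62, 63, -731), (64, 64, -732), (65, 66, -733), (67, 68, -734),
  (69, 70, -735), (71, 72, -736), (73, 74, -737), (75, 77, -738),
  (78, 79, -739), (80, 82, -740)]

theorem t_mn1_P0_ok : cover (cm (-1)) [3] t_mn1_P0 (0) (82) = true := by
  decide +kernel

def t_mn1_P1 : List (ℤ × ℤ × ℤ) := [
  (83, 85, -741), (86, 88, -742), (89, 91, -743), (92, 95, -744),
  (96, 99, -745), (100, 103, -746), (104, 108, -747), (109, 113, -748),
  (114, 119, -749), (120, 125, -750), (126, 132, -751), (133, 140, -752),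
  (141, 149, -753), (150, 159, -754), (160, 171, -755), (172, 184, -756),
  (185, 200, -757), (201, 219, -758), (220, 241, -759), (242, 269, -760),
  (270, 305, -761), (306, 350, -762), (351, 413, -763), (414, 502, -764),
  (503, 640, -765), (641, 885, -766), (886, 1434, -767), (1435, 3778, -768)]

theorem t_mn1_P1_ok : cover (cm (-1)) [3] t_mn1_P1 (83) (3778) = true := by
  decide +kernel

theorem tail_mn1_P_ok : tailOk (cm (-1)) (3779) (-769) = true := by decide +kernel

theorem r_mn1_P {M : ℤ} (h1 : 0 ≤ M) (hs : IsSquare ((cm (-1)).D M)) : M ∈ ([3] : List ℤ) := by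
  rcases le_or_gt M (82) with h3 | h3
  · exact cover_spec t_mn1_P0_ok (by omega) h3 hs
  rcases le_or_gt M (3778) with h3 | h3
  · exact cover_spec t_mn1_P1_ok (by omega) h3 hs
  exact absurd hs (tailOk_spec tail_mn1_P_ok (by omega))

def t_mn1_N0 : List (ℤ × ℤ × ℤ) := [
  (1, 1, -828), (2, 2, -957), (3, 3, -1006), (4, 4, -1017),
  (5, 5, -1011), (6, 6, -999), (7, 7, -984), (8, 8, -970),
  (9, 9, -957), (10, 10, -945), (11, 11, -933), (12, 12, -924),
  (13, 13, -915), (14, 14, -906), (15, 15, -899), (16, 16, -893),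
  (17, 17, -887), (18, 18, -881), (19, 19, -876), (20, 20, -871),
  (21, 21, -867), (22, 22, -863), (23, 23, -860), (24, 24, -856),
  (25, 25, -853), (26, 26, -850), (27, 27, -848), (28, 28, -845),
  (29, 29, -843), (30, 30, -840), (31, 31, -838), (32, 32, -836),
  (33, 33, -834), (34, 34, -833), (35, 35, -831), (36, 36, -829),
  (37, 37, -828), (38, 38, -826), (39, 39, -825), (40, 40, -824),
  (41, 41, -822), (42, 42, -821), (43, 43, -820), (44, 44, -819),
  (45, 45, -818), (46, 46, -817), (47, 47, -816), (48, 48, -815),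
  (49, 49, -814), (50, 50, -813), (51, 52, -812), (53, 53, -811),
  (54, 54, -810), (55, 56, -809), (57, 57, -808), (58, 59, -807),
  (60, 61, -806), (62, 63, -805), (64, 64, -804), (65, 66, -803),
  (67, 69, -802), (70, 71, -801), (72, 73, -800), (74, 76, -799),
  (77, 79, -798), (80, 82, -797), (83, 85, -796), (86, 88, -795),
  (89, 92, -794), (93, 96, -793)]

theorem t_mn1_N0_ok : cover (cm (-1)).neg [] t_mn1_N0 (1) (96) = true := by
  decide +kernel

def t_mn1_N1 : List (ℤ × ℤ × ℤ) := [
  (97, 100, -792), (101, 105, -791), (106, 111, -790), (112, 116, -789),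
  (117, 123, -788), (124, 130, -787), (131, 138, -786), (139, 147, -785),
  (148, 158, -784), (159, 170, -783), (171, 184, -782), (185, 200, -781),
  (201, 219, -780), (220, 243, -779), (244, 272, -778), (273, 310, -777),
  (311, 359, -776), (360, 425, -775), (426, 523, -774), (524, 678, -773),
  (679, 963, -772), (964, 1658, -771), (1659, 5923, -770)]

theorem t_mn1_N1_ok : cover (cm (-1)).neg [] t_mn1_N1 (97) (5923) = true := by
  decide +kernel

theorem tail_mn1_N_ok : tailOk (cm (-1)).neg (5924) (-769) = true := by decide +kernel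

theorem r_mn1_N {M : ℤ} (h1 : 1 ≤ M) (hs : IsSquare ((cm (-1)).neg.D M)) : M ∈ ([] : List ℤ) := by
  rcases le_or_gt M (96) with h3 | h3
  · exact cover_spec t_mn1_N0_ok (by omega) h3 hs
  rcases le_or_gt M (5923) with h3 | h3
  · exact cover_spec t_mn1_N1_ok (by omega) h3 hs
  exact absurd hs (tailOk_spec tail_mn1_N_ok (by omega))

theorem sq_mn1 {M : ℤ} (hs : IsSquare ((cm (-1)).D M)) : M = -12 ∨ M = 3 := by
  rcases le_or_gt 0 M with h | h
  · right
    simpa using r_mn1_P h hs
  · have h2 : IsSquare ((cm (-1)).neg.D (-M)) := by rw [Co.D_neg, neg_neg]; exact hs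
    have h3 := r_mn1_N (M := -M) (by omega) h2
    exact absurd h3 List.not_mem_nil

end Vale.Agent.P231.S3NT
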