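import Vale.Agent.P231.S3NT.Base

/-! Certificate tables: sign `-`, `j = -2`. -/

namespace Vale.Agent.P231.S3NT

def t_mn2_P0 : List (ℤ × ℤ × ℤ) := [
  (0, 0, -656), (1, 1, -126), (2, 2, 142), (3, 3, 0),
  (4, 4, -226), (5, 5, -426), (6, 6, -586), (7, 7, -714),
  (8, 8, -816), (9, 9, -898), (10, 10, -965), (11, 11, -1021),
  (12, 12, -1068), (13, 13, -1107), (14, 14, -1141), (15, 15, -1170),
  (16, 16, -1195), (17, 17, -1217), (18, 18, -1237), (19, 19, -1255),
  (20, 20, -1270), (21, 21, -1284), (22, 22, -1297), (23, 23, -1309),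
  (24, 24, -1319), (25, 25, -1329), (26, 26, -1338), (27, 27, -1346),
  (28, 28, -1353), (29, 29, -1360), (30, 30, -1367), (31, 31, -1373),
  (32, 32, -1378), (33, 33, -1384), (34, 34, -1389), (35, 35, -1393),
  (36, 36, -1398), (37, 37, -1402), (38, 38, -1406), (39, 39, -1409),
  (40, 40, -1413), (41, 41, -1416), (42, 42, -1419), (43, 43, -1422),
  (44, 44, -1425), (45, 45, -1428), (46, 46, -1430), (47, 47, -1433),
  (48, 48, -1435), (49, 49, -1437), (50, 50, -1440), (51, 51, -1442),
  (52, 52, -1444), (53, 53, -1445), (54, 54, -1447), (55, 55, -1449),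
  (56, 56, -1451), (57, 57, -1452), (58, 58, -1454), (59, 59, -1456),
  (60, 60, -1457), (61, 61, -1458), (62, 62, -1460), (63, 63, -1461),
  (64, 64, -1462), (65, 65, -1464), (66, 66, -1465), (67, 67, -1466),
  (68, 68, -1467), (69, 69, -1468)]

theorem t_mn2_P0_ok : cover (cm (-2)) [3] t_mn2_P0 (0) (69) = true := by
  decide +kernel

def t_mn2_P1 : List (ℤ × ℤ × ℤ) := [
  (70, 70, -1469), (71, 71, -1470), (72, 72, -1471), (73, 73, -1472),
  (74, 74, -1473), (75, 75, -1474), (76, 76, -1475), (77, 77, -1476),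
  (78, 79, -1477), (80, 80, -1478), (81, 81, -1479), (82, 82, -1480),
  (83, 84, -1481), (85, 85, -1482), (86, 87, -1483), (88, 88, -1484),
  (89, 90, -1485), (91, 92, -1486), (93, 93, -1487), (94, 95, -1488),
  (96, 97, -1489), (98, 99, -1490), (100, 101, -1491), (102, 103, -1492),
  (104, 105, -1493), (106, 108, -1494), (109, 110, -1495), (111, 113, -1496),
  (114, 115, -1497), (116, 118, -1498), (119, 121, -1499), (122, 124, -1500),
  (125, 127, -1501), (128, 131, -1502), (132, 134, -1503), (135, 138, -1504),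
  (139, 142, -1505), (143, 147, -1506), (148, 151, -1507), (152, 156, -1508),
  (157, 161, -1509), (162, 167, -1510), (168, 173, -1511), (174, 179, -1512),
  (180, 186, -1513), (187, 194, -1514), (195, 202, -1515), (203, 211, -1516),
  (212, 221, -1517), (222, 232, -1518), (233, 243, -1519), (244, 257, -1520),
  (258, 271, -1521), (272, 288, -1522), (289, 307, -1523), (308, 328, -1524),
  (329, 352, -1525), (353, 381, -1526), (382, 415, -1527), (416, 455, -1528),
  (456, 504, -1529), (505, 565, -1530), (566, 642, -1531), (643, 745, -1532),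
  (746, 887, -1533), (888, 1096, -1534), (1097, 1436, -1535), (1437, 2080, -1536),
  (2081, 3780, -1537), (3781, 20834, -1538)]

theorem t_mn2_P1_ok : cover (cm (-2)) [3] t_mn2_P1 (70) (20834) = true := by
  decide +kernel

theorem tail_mn2_P_ok : tailOk (cm (-2)) (20835) (-1539) = true := by decide +kernel

theorem r_mn2_P {M : ℤ} (h1 : 0 ≤ M) (hs : IsSquare ((cm (-2)).D M)) : M ∈ ([3] : List ℤ) := by
  rcases le_or_gt M (69) with h3 | h3
  · exact cover_spec t_mn2_P0_ok (by omega) h3 hs
  rcases le_or_gt M (20834) with h3 | h3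
  · exact cover_spec t_mn2_P1_ok (by omega) h3 hs
  exact absurd hs (tailOk_spec tail_mn2_P_ok (by omega))

def t_mn2_N0 : List (ℤ × ℤ × ℤ) := [
  (1, 1, -1097), (2, 2, -1396), (3, 3, -1581), (4, 4, -1691),
  (5, 5, -1752), (6, 6, -1784), (7, 7, -1798), (8, 8, -1802),
  (9, 9, -1801), (10, 10, -1795), (11, 11, -1788), (12, 12, -1780),
  (13, 13, -1772), (14, 14, -1763), (15, 15, -1755), (16, 16, -1747),
  (17, 17, -1739), (18, 18, -1732), (19, 19, -1725), (20, 20, -1718),
  (21, 21, -1712), (22, 22, -1707), (23, 23, -1701), (24, 24, -1696),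
  (25, 25, -1691), (26, 26, -1686), (27, 27, -1682), (28, 28, -1678),
  (29, 29, -1674), (30, 30, -1670), (31, 31, -1667), (32, 32, -1663),
  (33, 33, -1660), (34, 34, -1657), (35, 35, -1654), (36, 36, -1652),
  (37, 37, -1649), (38, 38, -1646), (39, 39, -1644), (40, 40, -1642),
  (41, 41, -1640), (42, 42, -1637), (43, 43, -1635), (44, 44, -1633),
  (45, 45, -1632), (46, 46, -1630), (47, 47, -1628), (48, 48, -1626),
  (49, 49, -1625), (50, 50, -1623), (51, 51, -1622), (52, 52, -1620),
  (53, 53, -1619), (54, 54, -1618), (55, 55, -1616), (56, 56, -1615),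
  (57, 57, -1614), (58, 58, -1613), (59, 59, -1611), (60, 60, -1610),
  (61, 61, -1609), (62, 62, -1608), (63, 63, -1607), (64, 64, -1606),
  (65, 65, -1605), (66, 66, -1604), (67, 67, -1603), (68, 69, -1602),
  (70, 70, -1601), (71, 71, -1600)]

theorem t_mn2_N0_ok : cover (cm (-2)).neg [] t_mn2_N0 (1) (71) = true := by
  decide +kernel

def t_mn2_N1 : List (ℤ × ℤ × ℤ) := [
  (72, 72, -1599), (73, 74, -1598), (75, 75, -1597), (76, 76, -1596),
  (77, 78, -1595), (79, 79, -1594), (80, 81, -1593), (82, 83, -1592),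
  (84, 84, -1591), (85, 86, -1590), (87, 88, -1589), (89, 90, -1588),
  (91, 92, -1587), (93, 94, -1586), (95, 96, -1585), (97, 98, -1584),
  (99, 101, -1583), (102, 103, -1582), (104, 106, -1581), (107, 108, -1580),
  (109, 111, -1579), (112, 114, -1578), (115, 117, -1577), (118, 121, -1576),
  (122, 124, -1575), (125, 128, -1574), (129, 132, -1573), (133, 136, -1572),
  (137, 140, -1571), (141, 145, -1570), (146, 150, -1569), (151, 156, -1568),
  (157, 161, -1567), (162, 168, -1566), (169, 174, -1565), (175, 182, -1564),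
  (183, 189, -1563), (190, 198, -1562), (199, 207, -1561), (208, 217, -1560),
  (218, 229, -1559), (230, 241, -1558), (242, 255, -1557), (256, 270, -1556),
  (271, 288, -1555), (289, 308, -1554), (309, 330, -1553), (331, 356, -1552),
  (357, 387, -1551), (388, 423, -1550), (424, 467, -1549), (468, 521, -1548),
  (522, 589, -1547), (590, 676, -1546), (677, 794, -1545), (795, 961, -1544),
  (962, 1216, -1543), (1217, 1656, -1542), (1657, 2589, -1541), (2590, 5921, -1540)]

theorem t_mn2_N1_ok : cover (cm (-2)).neg [] t_mn2_N1 (72) (5921) = true := by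
  decide +kernel

theorem tail_mn2_N_ok : tailOk (cm (-2)).neg (5922) (-1539) = true := by decide +kernel

theorem r_mn2_N {M : ℤ} (h1 : 1 ≤ M) (hs : IsSquare ((cm (-2)).neg.D M)) : M ∈ ([] : List ℤ) := by
  rcases le_or_gt M (71) with h3 | h3
  · exact cover_spec t_mn2_N0_ok (by omega) h3 hs
  rcases le_or_gt M (5921) with h3 | h3
  · exact cover_spec t_mn2_N1_ok (by omega) h3 hs
  exact absurd hs (tailOk_spec tail_mn2_N_ok (by omega))

theorem sq_mn2 {M : ℤ} (hs : IsSquare ((cm (-2)).D M)) : M = -12 ∨ M = 3 := by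
  rcases le_or_gt 0 M with h | h
  · right
    simpa using r_mn2_P h hs
  · have h2 : IsSquare ((cm (-2)).neg.D (-M)) := by rw [Co.D_neg, neg_neg]; exact hs
    have h3 := r_mn2_N (M := -M) (by omega) h2
    exact absurd h3 List.not_mem_nil

end Vale.Agent.P231.S3NT
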