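import Vale.Agent.P231.S3NT.Base

/-! Certificate tables: sign `-`, `j = -4`. -/

namespace Vale.Agent.P231.S3NT

def t_mn4_P0 : List (ℤ × ℤ × ℤ) := [
  (0, 0, -734), (1, 1, -127), (2, 2, 151), (3, 3, 0),
  (4, 4, -325), (5, 5, -663), (6, 6, -963), (7, 7, -1218),
  (8, 8, -1431), (9, 9, -1610), (10, 10, -1759), (11, 11, -1886),
  (12, 12, -1993), (13, 13, -2085), (14, 14, -2164), (15, 15, -2233),
  (16, 16, -2293), (17, 17, -2346), (18, 18, -2392), (19, 19, -2434),
  (20, 20, -2471), (21, 21, -2505), (22, 22, -2535), (23, 23, -2562),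
  (24, 24, -2587), (25, 25, -2610), (26, 26, -2631), (27, 27, -2650),
  (28, 28, -2668), (29, 29, -2684), (30, 30, -2699), (31, 31, -2713),
  (32, 32, -2726), (33, 33, -2738), (34, 34, -2750), (35, 35, -2761),
  (36, 36, -2771), (37, 37, -2780), (38, 38, -2789), (39, 39, -2797),
  (40, 40, -2805), (41, 41, -2813), (42, 42, -2820), (43, 43, -2827),
  (44, 44, -2833), (45, 45, -2839), (46, 46, -2845), (47, 47, -2851),
  (48, 48, -2856), (49, 49, -2861), (50, 50, -2866), (51, 51, -2871),
  (52, 52, -2875), (53, 53, -2879), (54, 54, -2883), (55, 55, -2887),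
  (56, 56, -2891), (57, 57, -2895), (58, 58, -2898), (59, 59, -2902),
  (60, 60, -2905), (61, 61, -2908), (62, 62, -2911), (63, 63, -2914),
  (64, 64, -2917), (65, 65, -2919), (66, 66, -2922), (67, 67, -2925),
  (68, 68, -2927), (69, 69, -2929)]

theorem t_mn4_P0_ok : cover (cm (-4)) [3] t_mn4_P0 (0) (69) = true := by
  decide +kernel

def t_mn4_P1 : List (ℤ × ℤ × ℤ) := [
  (70, 70, -2932), (71, 71, -2934), (72, 72, -2936), (73, 73, -2938),
  (74, 74, -2940), (75, 75, -2942), (76, 76, -2944), (77, 77, -2946),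
  (78, 78, -2948), (79, 79, -2950), (80, 80, -2952), (81, 81, -2953),
  (82, 82, -2955), (83, 83, -2956), (84, 84, -2958), (85, 85, -2960),
  (86, 86, -2961), (87, 87, -2962), (88, 88, -2964), (89, 89, -2965),
  (90, 90, -2967), (91, 91, -2968), (92, 92, -2969), (93, 93, -2970),
  (94, 94, -2972), (95, 95, -2973), (96, 96, -2974), (97, 97, -2975),
  (98, 98, -2976), (99, 99, -2977), (100, 100, -2979), (101, 101, -2980),
  (102, 102, -2981), (103, 103, -2982), (104, 104, -2983), (105, 105, -2984),
  (106, 107, -2985), (108, 108, -2986), (109, 109, -2987), (110, 110, -2988),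
  (111, 111, -2989), (112, 112, -2990), (113, 114, -2991), (115, 115, -2992),
  (116, 116, -2993), (117, 117, -2994), (118, 119, -2995), (120, 120, -2996),
  (121, 122, -2997), (123, 123, -2998), (124, 124, -2999), (125, 126, -3000),
  (127, 128, -3001), (129, 129, -3002), (130, 131, -3003), (132, 133, -3004),
  (134, 134, -3005), (135, 136, -3006), (137, 138, -3007), (139, 140, -3008),
  (141, 142, -3009), (143, 144, -3010), (145, 146, -3011), (147, 148, -3012),
  (149, 150, -3013), (151, 152, -3014), (153, 155, -3015), (156, 157, -3016),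
  (158, 160, -3017), (161, 162, -3018)]

theorem t_mn4_P1_ok : cover (cm (-4)) [3] t_mn4_P1 (70) (162) = true := by
  decide +kernel

def t_mn4_P2 : List (ℤ × ℤ × ℤ) := [
  (163, 165, -3019), (166, 168, -3020), (169, 170, -3021), (171, 173, -3022),
  (174, 177, -3023), (178, 180, -3024), (181, 183, -3025), (184, 186, -3026),
  (187, 190, -3027), (191, 194, -3028), (195, 198, -3029), (199, 202, -3030),
  (203, 206, -3031), (207, 210, -3032), (211, 215, -3033), (216, 220, -3034),
  (221, 225, -3035), (226, 230, -3036), (231, 235, -3037), (236, 241, -3038),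
  (242, 247, -3039), (248, 254, -3040), (255, 260, -3041), (261, 268, -3042),
  (269, 275, -3043), (276, 283, -3044), (284, 292, -3045), (293, 301, -3046),
  (302, 310, -3047), (311, 321, -3048), (322, 332, -3049), (333, 343, -3050),
  (344, 356, -3051), (357, 370, -3052), (371, 385, -3053), (386, 401, -3054),
  (402, 418, -3055), (419, 438, -3056), (439, 459, -3057), (460, 482, -3058),
  (483, 508, -3059), (509, 536, -3060), (537, 569, -3061), (570, 605, -3062),
  (606, 646, -3063), (647, 694, -3064), (695, 749, -3065), (750, 814, -3066),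
  (815, 891, -3067), (892, 985, -3068), (986, 1100, -3069), (1101, 1247, -3070),
  (1248, 1440, -3071), (1441, 1703, -3072), (1704, 2084, -3073), (2085, 2687, -3074),
  (2688, 3784, -3075), (3785, 6402, -3076), (6403, 20838, -3077)]

theorem t_mn4_P2_ok : cover (cm (-4)) [3] t_mn4_P2 (163) (20838) = true := by
  decide +kernel

theorem tail_mn4_P_ok : tailOk (cm (-4)) (20839) (-3078) = true := by decide +kernel

theorem r_mn4_P {M : ℤ} (h1 : 0 ≤ M) (hs : IsSquare ((cm (-4)).D M)) : M ∈ ([3] : List ℤ) := by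
  rcases le_or_gt M (69) with h3 | h3
  · exact cover_spec t_mn4_P0_ok (by omega) h3 hs
  rcases le_or_gt M (162) with h3 | h3
  · exact cover_spec t_mn4_P1_ok (by omega) h3 hs
  rcases le_or_gt M (20838) with h3 | h3
  · exact cover_spec t_mn4_P2_ok (by omega) h3 hs
  exact absurd hs (tailOk_spec tail_mn4_P_ok (by omega))

def t_mn4_N0 : List (ℤ × ℤ × ℤ) := [
  (1, 1, -1368), (2, 2, -1898), (3, 3, -2307), (4, 4, -2611),
  (5, 5, -2833), (6, 6, -2992), (7, 7, -3105), (8, 8, -3186),
  (9, 9, -3242), (10, 10, -3282), (11, 11, -3309), (12, 12, -3328),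
  (13, 13, -3340), (14, 14, -3347), (15, 15, -3351), (16, 16, -3352),
  (17, 17, -3352), (18, 18, -3350), (19, 19, -3347), (20, 20, -3344),
  (21, 21, -3340), (22, 22, -3335), (23, 23, -3331), (24, 24, -3326),
  (25, 25, -3321), (26, 26, -3317), (27, 27, -3312), (28, 28, -3307),
  (29, 29, -3303), (30, 30, -3298), (31, 31, -3294), (32, 32, -3290),
  (33, 33, -3286), (34, 34, -3282), (35, 35, -3278), (36, 36, -3274),
  (37, 37, -3270), (38, 38, -3267), (39, 39, -3263), (40, 40, -3260),
  (41, 41, -3257), (42, 42, -3254), (43, 43, -3251), (44, 44, -3248),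
  (45, 45, -3245), (46, 46, -3242), (47, 47, -3239), (48, 48, -3237),
  (49, 49, -3234), (50, 50, -3232), (51, 51, -3229), (52, 52, -3227),
  (53, 53, -3225), (54, 54, -3222), (55, 55, -3220), (56, 56, -3218),
  (57, 57, -3216), (58, 58, -3214), (59, 59, -3212), (60, 60, -3210),
  (61, 61, -3209), (62, 62, -3207), (63, 63, -3205), (64, 64, -3203),
  (65, 65, -3202), (66, 66, -3200), (67, 67, -3199), (68, 68, -3197),
  (69, 69, -3196), (70, 70, -3194)]

theorem t_mn4_N0_ok : cover (cm (-4)).neg [] t_mn4_N0 (1) (70) = true := by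
  decide +kernel

def t_mn4_N1 : List (ℤ × ℤ × ℤ) := [
  (71, 71, -3193), (72, 72, -3191), (73, 73, -3190), (74, 74, -3189),
  (75, 75, -3187), (76, 76, -3186), (77, 77, -3185), (78, 78, -3184),
  (79, 79, -3183), (80, 80, -3181), (81, 81, -3180), (82, 82, -3179),
  (83, 83, -3178), (84, 84, -3177), (85, 85, -3176), (86, 86, -3175),
  (87, 87, -3174), (88, 88, -3173), (89, 89, -3172), (90, 90, -3171),
  (91, 91, -3170), (92, 92, -3169), (93, 93, -3168), (94, 95, -3167),
  (96, 96, -3166), (97, 97, -3165), (98, 98, -3164), (99, 100, -3163),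
  (101, 101, -3162), (102, 102, -3161), (103, 104, -3160), (105, 105, -3159),
  (106, 107, -3158), (108, 108, -3157), (109, 110, -3156), (111, 111, -3155),
  (112, 113, -3154), (114, 114, -3153), (115, 116, -3152), (117, 118, -3151),
  (119, 120, -3150), (121, 121, -3149), (122, 123, -3148), (124, 125, -3147),
  (126, 127, -3146), (128, 129, -3145), (130, 132, -3144), (133, 134, -3143),
  (135, 136, -3142), (137, 138, -3141), (139, 141, -3140), (142, 143, -3139),
  (144, 146, -3138), (147, 148, -3137), (149, 151, -3136), (152, 154, -3135),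
  (155, 157, -3134), (158, 160, -3133), (161, 163, -3132), (164, 166, -3131),
  (167, 170, -3130), (171, 173, -3129), (174, 177, -3128), (178, 181, -3127),
  (182, 185, -3126), (186, 189, -3125), (190, 194, -3124), (195, 198, -3123),
  (199, 203, -3122), (204, 208, -3121)]

theorem t_mn4_N1_ok : cover (cm (-4)).neg [] t_mn4_N1 (71) (208) = true := by
  decide +kernel

def t_mn4_N2 : List (ℤ × ℤ × ℤ) := [
  (209, 213, -3120), (214, 219, -3119), (220, 224, -3118), (225, 230, -3117),
  (231, 237, -3116), (238, 244, -3115), (245, 251, -3114), (252, 258, -3113),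
  (259, 266, -3112), (267, 275, -3111), (276, 284, -3110), (285, 293, -3109),
  (294, 303, -3108), (304, 314, -3107), (315, 326, -3106), (327, 339, -3105),
  (340, 352, -3104), (353, 367, -3103), (368, 383, -3102), (384, 400, -3101),
  (401, 419, -3100), (420, 440, -3099), (441, 463, -3098), (464, 489, -3097),
  (490, 517, -3096), (518, 549, -3095), (550, 584, -3094), (585, 625, -3093),
  (626, 672, -3092), (673, 726, -3091), (727, 790, -3090), (791, 865, -3089),
  (866, 957, -3088), (958, 1070, -3087), (1071, 1212, -3086), (1213, 1399, -3085),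
  (1400, 1652, -3084), (1653, 2016, -3083), (2017, 2585, -3082), (2586, 3600, -3081),
  (3601, 5917, -3080), (5918, 16556, -3079)]

theorem t_mn4_N2_ok : cover (cm (-4)).neg [] t_mn4_N2 (209) (16556) = true := by
  decide +kernel

theorem tail_mn4_N_ok : tailOk (cm (-4)).neg (16557) (-3078) = true := by decide +kernel

theorem r_mn4_N {M : ℤ} (h1 : 1 ≤ M) (hs : IsSquare ((cm (-4)).neg.D M)) : M ∈ ([] : List ℤ) := by
  rcases le_or_gt M (70) with h3 | h3
  · exact cover_spec t_mn4_N0_ok (by omega) h3 hs
  rcases le_or_gt M (208) with h3 | h3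
  · exact cover_spec t_mn4_N1_ok (by omega) h3 hs
  rcases le_or_gt M (16556) with h3 | h3
  · exact cover_spec t_mn4_N2_ok (by omega) h3 hs
  exact absurd hs (tailOk_spec tail_mn4_N_ok (by omega))

theorem sq_mn4 {M : ℤ} (hs : IsSquare ((cm (-4)).D M)) : M = -12 ∨ M = 3 := by
  rcases le_or_gt 0 M with h | h
  · right
    simpa using r_mn4_P h hs
  · have h2 : IsSquare ((cm (-4)).neg.D (-M)) := by rw [Co.D_neg, neg_neg]; exact hs
    have h3 := r_mn4_N (M := -M) (by omega) h2
    exact absurd h3 List.not_mem_nil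

end Vale.Agent.P231.S3NT
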