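import Vale.Agent.P231.S3NT.Base

/-! Certificate tables: sign `-`, `j = 1`. -/

namespace Vale.Agent.P231.S3NT

def t_mq1_P0 : List (ℤ × ℤ × ℤ) := [
  (0, 0, 0), (1, 1, -970), (2, 2, -800), (3, 3, 0),
  (4, 4, 331), (5, 5, 417), (6, 6, 468), (7, 7, 505),
  (8, 8, 533), (9, 9, 556), (10, 10, 575), (11, 11, 590),
  (12, 12, 603), (13, 13, 615), (14, 14, 625), (15, 15, 633),
  (16, 16, 641), (17, 17, 648), (18, 18, 654), (19, 19, 660),
  (20, 20, 665), (21, 21, 669), (22, 22, 674), (23, 23, 678),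
  (24, 24, 681), (25, 25, 684), (26, 26, 688), (27, 27, 690),
  (28, 28, 693), (29, 29, 696), (30, 30, 698), (31, 31, 700),
  (32, 32, 702), (33, 33, 704), (34, 34, 706), (35, 35, 708),
  (36, 36, 709), (37, 37, 711), (38, 38, 712), (39, 39, 714),
  (40, 40, 715), (41, 41, 716), (42, 42, 718), (43, 43, 719),
  (44, 44, 720), (45, 45, 721), (46, 46, 722), (47, 47, 723),
  (48, 48, 724), (49, 49, 725), (50, 50, 726), (51, 52, 727),
  (53, 53, 728), (54, 54, 729), (55, 56, 730), (57, 57, 731),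
  (58, 59, 732), (60, 61, 733), (62, 62, 734), (63, 64, 735),
  (65, 66, 736), (67, 68, 737), (69, 70, 738), (71, 73, 739),
  (74, 75, 740), (76, 78, 741), (79, 81, 742), (82, 84, 743),
  (85, 88, 744), (89, 91, 745)]

theorem t_mq1_P0_ok : cover (cm (1)) [3] t_mq1_P0 (0) (91) = true := by
  decide +kernel

def t_mq1_P1 : List (ℤ × ℤ × ℤ) := [
  (92, 95, 746), (96, 100, 747), (101, 104, 748), (105, 109, 749),
  (110, 115, 750), (116, 121, 751), (122, 128, 752), (129, 136, 753),
  (137, 145, 754), (146, 155, 755), (156, 167, 756), (168, 180, 757),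
  (181, 196, 758), (197, 215, 759), (216, 238, 760), (239, 265, 761),
  (266, 301, 762), (302, 346, 763), (347, 409, 764), (410, 498, 765),
  (499, 636, 766), (637, 881, 767), (882, 1430, 768), (1431, 3774, 769)]

theorem t_mq1_P1_ok : cover (cm (1)) [3] t_mq1_P1 (92) (3774) = true := by
  decide +kernel

theorem tail_mq1_P_ok : tailOk (cm (1)) (3775) (770) = true := by decide +kernel

theorem r_mq1_P {M : ℤ} (h1 : 0 ≤ M) (hs : IsSquare ((cm (1)).D M)) : M ∈ ([3] : List ℤ) := by
  rcases le_or_gt M (91) with h3 | h3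
  · exact cover_spec t_mq1_P0_ok (by omega) h3 hs
  rcases le_or_gt M (3774) with h3 | h3
  · exact cover_spec t_mq1_P1_ok (by omega) h3 hs
  exact absurd hs (tailOk_spec tail_mq1_P_ok (by omega))

def t_mq1_N0 : List (ℤ × ℤ × ℤ) := [
  (1, 1, 0), (2, 2, 0), (3, 3, 0), (4, 4, 0),
  (5, 5, 1747), (6, 6, 1420), (7, 7, 1267), (8, 8, 1175),
  (9, 9, 1112), (10, 10, 1067), (11, 11, 1032), (12, 12, 1005),
  (13, 13, 983), (14, 14, 965), (15, 15, 950), (16, 16, 936),
  (17, 17, 925), (18, 18, 915), (19, 19, 907), (20, 20, 899),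
  (21, 21, 892), (22, 22, 886), (23, 23, 880), (24, 24, 875),
  (25, 25, 871), (26, 26, 867), (27, 27, 863), (28, 28, 859),
  (29, 29, 856), (30, 30, 853), (31, 31, 850), (32, 32, 847),
  (33, 33, 845), (34, 34, 842), (35, 35, 840), (36, 36, 838),
  (37, 37, 836), (38, 38, 834), (39, 39, 833), (40, 40, 831),
  (41, 41, 829), (42, 42, 828), (43, 43, 826), (44, 44, 825),
  (45, 45, 824), (46, 46, 823), (47, 47, 821), (48, 48, 820),
  (49, 49, 819), (50, 50, 818), (51, 51, 817), (52, 52, 816),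
  (53, 54, 815), (55, 55, 814), (56, 56, 813), (57, 57, 812),
  (58, 59, 811), (60, 60, 810), (61, 62, 809), (63, 63, 808),
  (64, 65, 807), (66, 67, 806), (68, 69, 805), (70, 71, 804),
  (72, 73, 803), (74, 75, 802), (76, 77, 801), (78, 80, 800),
  (81, 83, 799), (84, 86, 798)]

theorem t_mq1_N0_ok : cover (cm (1)).neg [] t_mq1_N0 (1) (86) = true := by
  decide +kernel

def t_mq1_N1 : List (ℤ × ℤ × ℤ) := [
  (87, 89, 797), (90, 92, 796), (93, 96, 795), (97, 100, 794),
  (101, 105, 793), (106, 109, 792), (110, 115, 791), (116, 120, 790),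
  (121, 127, 789), (128, 134, 788), (135, 142, 787), (143, 151, 786),
  (152, 162, 785), (163, 174, 784), (175, 188, 783), (189, 204, 782),
  (205, 224, 781), (225, 247, 780), (248, 276, 779), (277, 314, 778),
  (315, 363, 777), (364, 430, 776), (431, 527, 775), (528, 682, 774),
  (683, 967, 773), (968, 1662, 772), (1663, 5927, 771)]

theorem t_mq1_N1_ok : cover (cm (1)).neg [] t_mq1_N1 (87) (5927) = true := by
  decide +kernel

theorem tail_mq1_N_ok : tailOk (cm (1)).neg (5928) (770) = true := by decide +kernel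

theorem r_mq1_N {M : ℤ} (h1 : 1 ≤ M) (hs : IsSquare ((cm (1)).neg.D M)) : M ∈ ([] : List ℤ) := by
  rcases le_or_gt M (86) with h3 | h3
  · exact cover_spec t_mq1_N0_ok (by omega) h3 hs
  rcases le_or_gt M (5927) with h3 | h3
  · exact cover_spec t_mq1_N1_ok (by omega) h3 hs
  exact absurd hs (tailOk_spec tail_mq1_N_ok (by omega))

theorem sq_mq1 {M : ℤ} (hs : IsSquare ((cm (1)).D M)) : M = -12 ∨ M = 3 := by
  rcases le_or_gt 0 M with h | h
  · right
    simpa using r_mq1_P h hs
  · have h2 : IsSquare ((cm (1)).neg.D (-M)) := by rw [Co.D_neg, neg_neg]; exact hs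
    have h3 := r_mq1_N (M := -M) (by omega) h2
    exact absurd h3 List.not_mem_nil

end Vale.Agent.P231.S3NT
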