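import Vale.Agent.P231.S3NT.Base

/-! Certificate tables: sign `-`, `j = 2`. -/

namespace Vale.Agent.P231.S3NT

def t_mq2_P0 : List (ℤ × ℤ × ℤ) := [
  (0, 0, 0), (1, 1, -1994), (2, 2, -1798), (3, 3, 0),
  (4, 4, 0), (5, 5, 0), (6, 6, 1268), (7, 7, 1211),
  (8, 8, 1208), (9, 9, 1219), (10, 10, 1234), (11, 11, 1249),
  (12, 12, 1264), (13, 13, 1278), (14, 14, 1291), (15, 15, 1303),
  (16, 16, 1314), (17, 17, 1324), (18, 18, 1334), (19, 19, 1342),
  (20, 20, 1350), (21, 21, 1357), (22, 22, 1364), (23, 23, 1371),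
  (24, 24, 1376), (25, 25, 1382), (26, 26, 1387), (27, 27, 1392),
  (28, 28, 1396), (29, 29, 1401), (30, 30, 1405), (31, 31, 1409),
  (32, 32, 1412), (33, 33, 1416), (34, 34, 1419), (35, 35, 1422),
  (36, 36, 1425), (37, 37, 1428), (38, 38, 1430), (39, 39, 1433),
  (40, 40, 1435), (41, 41, 1437), (42, 42, 1440), (43, 43, 1442),
  (44, 44, 1444), (45, 45, 1446), (46, 46, 1448), (47, 47, 1449),
  (48, 48, 1451), (49, 49, 1453), (50, 50, 1454), (51, 51, 1456),
  (52, 52, 1457), (53, 53, 1459), (54, 54, 1460), (55, 55, 1462),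
  (56, 56, 1463), (57, 57, 1464), (58, 58, 1465), (59, 59, 1467),
  (60, 60, 1468), (61, 61, 1469), (62, 62, 1470), (63, 63, 1471),
  (64, 64, 1472), (65, 65, 1473), (66, 66, 1474), (67, 67, 1475),
  (68, 68, 1476), (69, 70, 1477)]

theorem t_mq2_P0_ok : cover (cm (2)) [3] t_mq2_P0 (0) (70) = true := by
  decide +kernel

def t_mq2_P1 : List (ℤ × ℤ × ℤ) := [
  (71, 71, 1478), (72, 72, 1479), (73, 73, 1480), (74, 75, 1481),
  (76, 76, 1482), (77, 77, 1483), (78, 79, 1484), (80, 81, 1485),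
  (82, 82, 1486), (83, 84, 1487), (85, 86, 1488), (87, 87, 1489),
  (88, 89, 1490), (90, 91, 1491), (92, 93, 1492), (94, 95, 1493),
  (96, 97, 1494), (98, 100, 1495), (101, 102, 1496), (103, 105, 1497),
  (106, 107, 1498), (108, 110, 1499), (111, 113, 1500), (114, 116, 1501),
  (117, 119, 1502), (120, 123, 1503), (124, 126, 1504), (127, 130, 1505),
  (131, 134, 1506), (135, 139, 1507), (140, 143, 1508), (144, 148, 1509),
  (149, 153, 1510), (154, 159, 1511), (160, 165, 1512), (166, 171, 1513),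
  (172, 178, 1514), (179, 186, 1515), (187, 194, 1516), (195, 203, 1517),
  (204, 213, 1518), (214, 224, 1519), (225, 235, 1520), (236, 249, 1521),
  (250, 263, 1522), (264, 280, 1523), (281, 299, 1524), (300, 320, 1525),
  (321, 344, 1526), (345, 373, 1527), (374, 407, 1528), (408, 447, 1529),
  (448, 496, 1530), (497, 557, 1531), (558, 634, 1532), (635, 737, 1533),
  (738, 879, 1534), (880, 1088, 1535), (1089, 1428, 1536), (1429, 2072, 1537),
  (2073, 3772, 1538), (3773, 20826, 1539)]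

theorem t_mq2_P1_ok : cover (cm (2)) [3] t_mq2_P1 (71) (20826) = true := by
  decide +kernel

theorem tail_mq2_P_ok : tailOk (cm (2)) (20827) (1540) = true := by decide +kernel

theorem r_mq2_P {M : ℤ} (h1 : 0 ≤ M) (hs : IsSquare ((cm (2)).D M)) : M ∈ ([3] : List ℤ) := by
  rcases le_or_gt M (70) with h3 | h3
  · exact cover_spec t_mq2_P0_ok (by omega) h3 hs
  rcases le_or_gt M (20826) with h3 | h3
  · exact cover_spec t_mq2_P1_ok (by omega) h3 hs
  exact absurd hs (tailOk_spec tail_mq2_P_ok (by omega))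

def t_mq2_N0 : List (ℤ × ℤ × ℤ) := [
  (1, 1, 0), (2, 2, 0), (3, 3, 0), (4, 4, 0),
  (5, 5, 0), (6, 6, 5138), (7, 7, 3138), (8, 8, 2691),
  (9, 9, 2451), (10, 10, 2297), (11, 11, 2189), (12, 12, 2108),
  (13, 13, 2045), (14, 14, 1995), (15, 15, 1954), (16, 16, 1920),
  (17, 17, 1891), (18, 18, 1866), (19, 19, 1845), (20, 20, 1826),
  (21, 21, 1809), (22, 22, 1794), (23, 23, 1781), (24, 24, 1769),
  (25, 25, 1758), (26, 26, 1748), (27, 27, 1739), (28, 28, 1731),
  (29, 29, 1724), (30, 30, 1717), (31, 31, 1710), (32, 32, 1704),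
  (33, 33, 1698), (34, 34, 1693), (35, 35, 1688), (36, 36, 1684),
  (37, 37, 1679), (38, 38, 1675), (39, 39, 1671), (40, 40, 1668),
  (41, 41, 1664), (42, 42, 1661), (43, 43, 1658), (44, 44, 1655),
  (45, 45, 1652), (46, 46, 1649), (47, 47, 1647), (48, 48, 1644),
  (49, 49, 1642), (50, 50, 1640), (51, 51, 1638), (52, 52, 1636),
  (53, 53, 1634), (54, 54, 1632), (55, 55, 1630), (56, 56, 1628),
  (57, 57, 1627), (58, 58, 1625), (59, 59, 1624), (60, 60, 1622),
  (61, 61, 1621), (62, 62, 1619), (63, 63, 1618), (64, 64, 1617),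
  (65, 65, 1615), (66, 66, 1614), (67, 67, 1613), (68, 68, 1612),
  (69, 69, 1611), (70, 70, 1610)]

theorem t_mq2_N0_ok : cover (cm (2)).neg [] t_mq2_N0 (1) (70) = true := by
  decide +kernel

def t_mq2_N1 : List (ℤ × ℤ × ℤ) := [
  (71, 71, 1609), (72, 72, 1608), (73, 73, 1607), (74, 74, 1606),
  (75, 75, 1605), (76, 76, 1604), (77, 77, 1603), (78, 78, 1602),
  (79, 79, 1601), (80, 81, 1600), (82, 82, 1599), (83, 83, 1598),
  (84, 85, 1597), (86, 86, 1596), (87, 88, 1595), (89, 89, 1594),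
  (90, 91, 1593), (92, 93, 1592), (94, 94, 1591), (95, 96, 1590),
  (97, 98, 1589), (99, 100, 1588), (101, 102, 1587), (103, 104, 1586),
  (105, 107, 1585), (108, 109, 1584), (110, 111, 1583), (112, 114, 1582),
  (115, 117, 1581), (118, 119, 1580), (120, 122, 1579), (123, 126, 1578),
  (127, 129, 1577), (130, 132, 1576), (133, 136, 1575), (137, 140, 1574),
  (141, 144, 1573), (145, 149, 1572), (150, 153, 1571), (154, 158, 1570),
  (159, 164, 1569), (165, 170, 1568), (171, 176, 1567), (177, 182, 1566),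
  (183, 190, 1565), (191, 198, 1564), (199, 206, 1563), (207, 215, 1562),
  (216, 226, 1561), (227, 237, 1560), (238, 249, 1559), (250, 263, 1558),
  (264, 278, 1557), (279, 296, 1556), (297, 316, 1555), (317, 338, 1554),
  (339, 365, 1553), (366, 395, 1552), (396, 432, 1551), (433, 475, 1550),
  (476, 529, 1549), (530, 597, 1548), (598, 684, 1547), (685, 802, 1546),
  (803, 969, 1545), (970, 1224, 1544), (1225, 1664, 1543), (1665, 2598, 1542),
  (2599, 5929, 1541)]

theorem t_mq2_N1_ok : cover (cm (2)).neg [] t_mq2_N1 (71) (5929) = true := by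
  decide +kernel

theorem tail_mq2_N_ok : tailOk (cm (2)).neg (5930) (1540) = true := by decide +kernel

theorem r_mq2_N {M : ℤ} (h1 : 1 ≤ M) (hs : IsSquare ((cm (2)).neg.D M)) : M ∈ ([] : List ℤ) := by
  rcases le_or_gt M (70) with h3 | h3
  · exact cover_spec t_mq2_N0_ok (by omega) h3 hs
  rcases le_or_gt M (5929) with h3 | h3
  · exact cover_spec t_mq2_N1_ok (by omega) h3 hs
  exact absurd hs (tailOk_spec tail_mq2_N_ok (by omega))

theorem sq_mq2 {M : ℤ} (hs : IsSquare ((cm (2)).D M)) : M = -12 ∨ M = 3 := by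
  rcases le_or_gt 0 M with h | h
  · right
    simpa using r_mq2_P h hs
  · have h2 : IsSquare ((cm (2)).neg.D (-M)) := by rw [Co.D_neg, neg_neg]; exact hs
    have h3 := r_mq2_N (M := -M) (by omega) h2
    exact absurd h3 List.not_mem_nil

end Vale.Agent.P231.S3NT
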