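import Vale.Agent.P231.S3NT.Base

/-! Certificate tables: sign `-`, `j = 4`. -/

namespace Vale.Agent.P231.S3NT

def t_mq4_P0 : List (ℤ × ℤ × ℤ) := [
  (0, 0, -2829), (1, 1, -4036), (2, 2, -3827), (3, 3, 0),
  (4, 4, 0), (5, 5, 0), (6, 6, 0), (7, 7, 0),
  (8, 8, 3787), (9, 9, 3159), (10, 10, 2958), (11, 11, 2865),
  (12, 12, 2817), (13, 13, 2792), (14, 14, 2779), (15, 15, 2774),
  (16, 16, 2773), (17, 17, 2775), (18, 18, 2779), (19, 19, 2784),
  (20, 20, 2789), (21, 21, 2795), (22, 22, 2801), (23, 23, 2808),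
  (24, 24, 2814), (25, 25, 2820), (26, 26, 2826), (27, 27, 2832),
  (28, 28, 2837), (29, 29, 2843), (30, 30, 2848), (31, 31, 2853),
  (32, 32, 2858), (33, 33, 2863), (34, 34, 2868), (35, 35, 2872),
  (36, 36, 2876), (37, 37, 2880), (38, 38, 2884), (39, 39, 2888),
  (40, 40, 2892), (41, 41, 2896), (42, 42, 2899), (43, 43, 2902),
  (44, 44, 2905), (45, 45, 2909), (46, 46, 2912), (47, 47, 2914),
  (48, 48, 2917), (49, 49, 2920), (50, 50, 2923), (51, 51, 2925),
  (52, 52, 2928), (53, 53, 2930), (54, 54, 2932), (55, 55, 2935),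
  (56, 56, 2937), (57, 57, 2939), (58, 58, 2941), (59, 59, 2943),
  (60, 60, 2945), (61, 61, 2947), (62, 62, 2949), (63, 63, 2950),
  (64, 64, 2952), (65, 65, 2954), (66, 66, 2955), (67, 67, 2957),
  (68, 68, 2959), (69, 69, 2960)]

theorem t_mq4_P0_ok : cover (cm (4)) [3] t_mq4_P0 (0) (69) = true := by
  decide +kernel

def t_mq4_P1 : List (ℤ × ℤ × ℤ) := [
  (70, 70, 2962), (71, 71, 2963), (72, 72, 2965), (73, 73, 2966),
  (74, 74, 2967), (75, 75, 2969), (76, 76, 2970), (77, 77, 2971),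
  (78, 78, 2972), (79, 79, 2974), (80, 80, 2975), (81, 81, 2976),
  (82, 82, 2977), (83, 83, 2978), (84, 84, 2979), (85, 85, 2980),
  (86, 86, 2981), (87, 87, 2982), (88, 88, 2983), (89, 89, 2984),
  (90, 90, 2985), (91, 91, 2986), (92, 92, 2987), (93, 93, 2988),
  (94, 94, 2989), (95, 95, 2990), (96, 97, 2991), (98, 98, 2992),
  (99, 99, 2993), (100, 100, 2994), (101, 102, 2995), (103, 103, 2996),
  (104, 104, 2997), (105, 106, 2998), (107, 107, 2999), (108, 109, 3000),
  (110, 110, 3001), (111, 112, 3002), (113, 113, 3003), (114, 115, 3004),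
  (116, 117, 3005), (118, 118, 3006), (119, 120, 3007), (121, 122, 3008),
  (123, 124, 3009), (125, 126, 3010), (127, 128, 3011), (129, 130, 3012),
  (131, 132, 3013), (133, 134, 3014), (135, 137, 3015), (138, 139, 3016),
  (140, 141, 3017), (142, 144, 3018), (145, 146, 3019), (147, 149, 3020),
  (150, 152, 3021), (153, 155, 3022), (156, 158, 3023), (159, 161, 3024),
  (162, 164, 3025), (165, 167, 3026), (168, 171, 3027), (172, 174, 3028),
  (175, 178, 3029), (179, 182, 3030), (183, 186, 3031), (187, 190, 3032),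
  (191, 194, 3033), (195, 199, 3034)]

theorem t_mq4_P1_ok : cover (cm (4)) [3] t_mq4_P1 (70) (199) = true := by
  decide +kernel

def t_mq4_P2 : List (ℤ × ℤ × ℤ) := [
  (200, 204, 3035), (205, 209, 3036), (210, 214, 3037), (215, 219, 3038),
  (220, 225, 3039), (226, 231, 3040), (232, 238, 3041), (239, 245, 3042),
  (246, 252, 3043), (253, 259, 3044), (260, 267, 3045), (268, 276, 3046),
  (277, 285, 3047), (286, 294, 3048), (295, 305, 3049), (306, 316, 3050),
  (317, 328, 3051), (329, 340, 3052), (341, 354, 3053), (355, 369, 3054),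
  (370, 385, 3055), (386, 403, 3056), (404, 422, 3057), (423, 443, 3058),
  (444, 466, 3059), (467, 492, 3060), (493, 520, 3061), (521, 553, 3062),
  (554, 589, 3063), (590, 630, 3064), (631, 678, 3065), (679, 733, 3066),
  (734, 798, 3067), (799, 875, 3068), (876, 969, 3069), (970, 1084, 3070),
  (1085, 1231, 3071), (1232, 1424, 3072), (1425, 1687, 3073), (1688, 2068, 3074),
  (2069, 2671, 3075), (2672, 3768, 3076), (3769, 6386, 3077), (6387, 20822, 3078)]

theorem t_mq4_P2_ok : cover (cm (4)) [3] t_mq4_P2 (200) (20822) = true := by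
  decide +kernel

theorem tail_mq4_P_ok : tailOk (cm (4)) (20823) (3079) = true := by decide +kernel

theorem r_mq4_P {M : ℤ} (h1 : 0 ≤ M) (hs : IsSquare ((cm (4)).D M)) : M ∈ ([3] : List ℤ) := by
  rcases le_or_gt M (69) with h3 | h3
  · exact cover_spec t_mq4_P0_ok (by omega) h3 hs
  rcases le_or_gt M (199) with h3 | h3
  · exact cover_spec t_mq4_P1_ok (by omega) h3 hs
  rcases le_or_gt M (20822) with h3 | h3
  · exact cover_spec t_mq4_P2_ok (by omega) h3 hs
  exact absurd hs (tailOk_spec tail_mq4_P_ok (by omega))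

def t_mq4_N0 : List (ℤ × ℤ × ℤ) := [
  (1, 1, 0), (2, 2, 0), (3, 3, 0), (4, 4, 0),
  (5, 5, 0), (6, 6, 0), (7, 7, 0), (8, 8, 0),
  (9, 9, 6758), (10, 10, 5623), (11, 11, 5069), (12, 12, 4722),
  (13, 13, 4482), (14, 14, 4303), (15, 15, 4166), (16, 16, 4056),
  (17, 17, 3966), (18, 18, 3891), (19, 19, 3828), (20, 20, 3774),
  (21, 21, 3727), (22, 22, 3686), (23, 23, 3650), (24, 24, 3617),
  (25, 25, 3588), (26, 26, 3563), (27, 27, 3539), (28, 28, 3518),
  (29, 29, 3498), (30, 30, 3481), (31, 31, 3464), (32, 32, 3449),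
  (33, 33, 3435), (34, 34, 3422), (35, 35, 3410), (36, 36, 3399),
  (37, 37, 3388), (38, 38, 3378), (39, 39, 3369), (40, 40, 3360),
  (41, 41, 3352), (42, 42, 3344), (43, 43, 3337), (44, 44, 3330),
  (45, 45, 3324), (46, 46, 3317), (47, 47, 3311), (48, 48, 3306),
  (49, 49, 3300), (50, 50, 3295), (51, 51, 3290), (52, 52, 3286),
  (53, 53, 3281), (54, 54, 3277), (55, 55, 3273), (56, 56, 3269),
  (57, 57, 3265), (58, 58, 3261), (59, 59, 3258), (60, 60, 3255),
  (61, 61, 3251), (62, 62, 3248), (63, 63, 3245), (64, 64, 3242),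
  (65, 65, 3239), (66, 66, 3237), (67, 67, 3234), (68, 68, 3231),
  (69, 69, 3229), (70, 70, 3227)]

theorem t_mq4_N0_ok : cover (cm (4)).neg [] t_mq4_N0 (1) (70) = true := by
  decide +kernel

def t_mq4_N1 : List (ℤ × ℤ × ℤ) := [
  (71, 71, 3224), (72, 72, 3222), (73, 73, 3220), (74, 74, 3218),
  (75, 75, 3216), (76, 76, 3214), (77, 77, 3212), (78, 78, 3210),
  (79, 79, 3208), (80, 80, 3206), (81, 81, 3205), (82, 82, 3203),
  (83, 83, 3201), (84, 84, 3200), (85, 85, 3198), (86, 86, 3197),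
  (87, 87, 3195), (88, 88, 3194), (89, 89, 3192), (90, 90, 3191),
  (91, 91, 3190), (92, 92, 3188), (93, 93, 3187), (94, 94, 3186),
  (95, 95, 3185), (96, 96, 3183), (97, 97, 3182), (98, 98, 3181),
  (99, 99, 3180), (100, 100, 3179), (101, 101, 3178), (102, 102, 3177),
  (103, 103, 3176), (104, 104, 3175), (105, 105, 3174), (106, 106, 3173),
  (107, 107, 3172), (108, 108, 3171), (109, 109, 3170), (110, 110, 3169),
  (111, 111, 3168), (112, 113, 3167), (114, 114, 3166), (115, 115, 3165),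
  (116, 116, 3164), (117, 118, 3163), (119, 119, 3162), (120, 120, 3161),
  (121, 122, 3160), (123, 123, 3159), (124, 125, 3158), (126, 126, 3157),
  (127, 128, 3156), (129, 129, 3155), (130, 131, 3154), (132, 133, 3153),
  (134, 134, 3152), (135, 136, 3151), (137, 138, 3150), (139, 140, 3149),
  (141, 142, 3148), (143, 144, 3147), (145, 146, 3146), (147, 148, 3145),
  (149, 150, 3144), (151, 152, 3143), (153, 155, 3142), (156, 157, 3141),
  (158, 160, 3140), (161, 162, 3139)]

theorem t_mq4_N1_ok : cover (cm (4)).neg [] t_mq4_N1 (71) (162) = true := by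
  decide +kernel

def t_mq4_N2 : List (ℤ × ℤ × ℤ) := [
  (163, 165, 3138), (166, 168, 3137), (169, 170, 3136), (171, 173, 3135),
  (174, 176, 3134), (177, 180, 3133), (181, 183, 3132), (184, 186, 3131),
  (187, 190, 3130), (191, 194, 3129), (195, 197, 3128), (198, 201, 3127),
  (202, 206, 3126), (207, 210, 3125), (211, 214, 3124), (215, 219, 3123),
  (220, 224, 3122), (225, 229, 3121), (230, 235, 3120), (236, 241, 3119),
  (242, 247, 3118), (248, 253, 3117), (254, 260, 3116), (261, 267, 3115),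
  (268, 274, 3114), (275, 282, 3113), (283, 291, 3112), (292, 300, 3111),
  (301, 309, 3110), (310, 320, 3109), (321, 331, 3108), (332, 342, 3107),
  (343, 355, 3106), (356, 368, 3105), (369, 383, 3104), (384, 399, 3103),
  (400, 416, 3102), (417, 435, 3101), (436, 456, 3100), (457, 479, 3099),
  (480, 505, 3098), (506, 533, 3097), (534, 565, 3096), (566, 601, 3095),
  (602, 641, 3094), (642, 688, 3093), (689, 742, 3092), (743, 806, 3091),
  (807, 881, 3090), (882, 973, 3089), (974, 1086, 3088), (1087, 1228, 3087),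
  (1229, 1415, 3086), (1416, 1668, 3085), (1669, 2032, 3084), (2033, 2602, 3083),
  (2603, 3616, 3082), (3617, 5933, 3081), (5934, 16572, 3080)]

theorem t_mq4_N2_ok : cover (cm (4)).neg [] t_mq4_N2 (163) (16572) = true := by
  decide +kernel

theorem tail_mq4_N_ok : tailOk (cm (4)).neg (16573) (3079) = true := by decide +kernel

theorem r_mq4_N {M : ℤ} (h1 : 1 ≤ M) (hs : IsSquare ((cm (4)).neg.D M)) : M ∈ ([] : List ℤ) := by
  rcases le_or_gt M (70) with h3 | h3
  · exact cover_spec t_mq4_N0_ok (by omega) h3 hs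
  rcases le_or_gt M (162) with h3 | h3
  · exact cover_spec t_mq4_N1_ok (by omega) h3 hs
  rcases le_or_gt M (16572) with h3 | h3
  · exact cover_spec t_mq4_N2_ok (by omega) h3 hs
  exact absurd hs (tailOk_spec tail_mq4_N_ok (by omega))

theorem sq_mq4 {M : ℤ} (hs : IsSquare ((cm (4)).D M)) : M = -12 ∨ M = 3 := by
  rcases le_or_gt 0 M with h | h
  · right
    simpa using r_mq4_P h hs
  · have h2 : IsSquare ((cm (4)).neg.D (-M)) := by rw [Co.D_neg, neg_neg]; exact hs
    have h3 := r_mq4_N (M := -M) (by omega) h2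
    exact absurd h3 List.not_mem_nil

end Vale.Agent.P231.S3NT
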