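import Vale.Agent.P231.S3NT.Base

/-! Certificate tables: sign `+`, `j = -2`. -/

namespace Vale.Agent.P231.S3NT

def t_pn2_P0 : List (ℤ × ℤ × ℤ) := [
  (0, 0, -656), (1, 1, -449), (2, 2, -225), (3, 3, 0),
  (4, 4, 211), (5, 5, 398), (6, 6, 557), (7, 7, 688),
  (8, 8, 795), (9, 9, 883), (10, 10, 955), (11, 11, 1015),
  (12, 12, 1065), (13, 13, 1107), (14, 14, 1143), (15, 15, 1174),
  (16, 16, 1201), (17, 17, 1224), (18, 18, 1245), (19, 19, 1263),
  (20, 20, 1280), (21, 21, 1294), (22, 22, 1308), (23, 23, 1320),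
  (24, 24, 1331), (25, 25, 1341), (26, 26, 1350), (27, 27, 1358),
  (28, 28, 1366), (29, 29, 1373), (30, 30, 1380), (31, 31, 1386),
  (32, 32, 1392), (33, 33, 1398), (34, 34, 1403), (35, 35, 1408),
  (36, 36, 1412), (37, 37, 1416), (38, 38, 1421), (39, 39, 1424),
  (40, 40, 1428), (41, 41, 1431), (42, 42, 1435), (43, 43, 1438),
  (44, 44, 1441), (45, 45, 1443), (46, 46, 1446), (47, 47, 1449),
  (48, 48, 1451), (49, 49, 1453), (50, 50, 1456), (51, 51, 1458),
  (52, 52, 1460), (53, 53, 1462), (54, 54, 1464), (55, 55, 1466),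
  (56, 56, 1467), (57, 57, 1469), (58, 58, 1471), (59, 59, 1472),
  (60, 60, 1474), (61, 61, 1475), (62, 62, 1477), (63, 63, 1478),
  (64, 64, 1479), (65, 65, 1481), (66, 66, 1482), (67, 67, 1483),
  (68, 68, 1484), (69, 69, 1485)]

theorem t_pn2_P0_ok : cover (cp (-2)) [3] t_pn2_P0 (0) (69) = true := by
  decide +kernel

def t_pn2_P1 : List (ℤ × ℤ × ℤ) := [
  (70, 70, 1486), (71, 71, 1488), (72, 72, 1489), (73, 73, 1490),
  (74, 74, 1491), (75, 76, 1492), (77, 77, 1493), (78, 78, 1494),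
  (79, 79, 1495), (80, 80, 1496), (81, 81, 1497), (82, 83, 1498),
  (84, 84, 1499), (85, 85, 1500), (86, 87, 1501), (88, 88, 1502),
  (89, 90, 1503), (91, 92, 1504), (93, 93, 1505), (94, 95, 1506),
  (96, 97, 1507), (98, 99, 1508), (100, 101, 1509), (102, 103, 1510),
  (104, 105, 1511), (106, 107, 1512), (108, 109, 1513), (110, 111, 1514),
  (112, 114, 1515), (115, 117, 1516), (118, 119, 1517), (120, 122, 1518),
  (123, 125, 1519), (126, 128, 1520), (129, 132, 1521), (133, 135, 1522),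
  (136, 139, 1523), (140, 143, 1524), (144, 147, 1525), (148, 151, 1526),
  (152, 156, 1527), (157, 161, 1528), (162, 166, 1529), (167, 172, 1530),
  (173, 178, 1531), (179, 184, 1532), (185, 192, 1533), (193, 199, 1534),
  (200, 207, 1535), (208, 216, 1536), (217, 226, 1537), (227, 237, 1538),
  (238, 249, 1539), (250, 262, 1540), (263, 276, 1541), (277, 292, 1542),
  (293, 311, 1543), (312, 331, 1544), (332, 355, 1545), (356, 383, 1546),
  (384, 415, 1547), (416, 453, 1548), (454, 498, 1549), (499, 554, 1550),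
  (555, 624, 1551), (625, 715, 1552), (716, 837, 1553), (838, 1008, 1554),
  (1009, 1269, 1555), (1270, 1713, 1556)]

theorem t_pn2_P1_ok : cover (cp (-2)) [3] t_pn2_P1 (70) (1713) = true := by
  decide +kernel

def t_pn2_P2 : List (ℤ × ℤ × ℤ) := [
  (1714, 2633, 1557), (2634, 5702, 1558)]

theorem t_pn2_P2_ok : cover (cp (-2)) [3] t_pn2_P2 (1714) (5702) = true := by
  decide +kernel

theorem tail_pn2_P_ok : tailOk (cp (-2)) (5703) (1559) = true := by decide +kernel

theorem r_pn2_P {M : ℤ} (h1 : 0 ≤ M) (hs : IsSquare ((cp (-2)).D M)) : M ∈ ([3] : List ℤ) := by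
  rcases le_or_gt M (69) with h3 | h3
  · exact cover_spec t_pn2_P0_ok (by omega) h3 hs
  rcases le_or_gt M (1713) with h3 | h3
  · exact cover_spec t_pn2_P1_ok (by omega) h3 hs
  rcases le_or_gt M (5702) with h3 | h3
  · exact cover_spec t_pn2_P2_ok (by omega) h3 hs
  exact absurd hs (tailOk_spec tail_pn2_P_ok (by omega))

def t_pn2_N0 : List (ℤ × ℤ × ℤ) := [
  (1, 1, -829), (2, 2, -957), (3, 3, -1028), (4, 4, -1037),
  (5, 5, -977), (6, 6, -846), (7, 7, -641), (8, 8, -360),
  (9, 9, -3), (10, 10, 428), (11, 11, 926), (12, 12, 0),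
  (13, 13, 1732), (14, 14, 1787), (15, 15, 1794), (16, 16, 1791),
  (17, 17, 1784), (18, 18, 1777), (19, 19, 1769), (20, 20, 1761),
  (21, 21, 1754), (22, 22, 1747), (23, 23, 1741), (24, 24, 1735),
  (25, 25, 1729), (26, 26, 1723), (27, 27, 1718), (28, 28, 1713),
  (29, 29, 1709), (30, 30, 1704), (31, 31, 1700), (32, 32, 1697),
  (33, 33, 1693), (34, 34, 1689), (35, 35, 1686), (36, 36, 1683),
  (37, 37, 1680), (38, 38, 1677), (39, 39, 1674), (40, 40, 1672),
  (41, 41, 1669), (42, 42, 1667), (43, 43, 1664), (44, 44, 1662),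
  (45, 45, 1660), (46, 46, 1658), (47, 47, 1656), (48, 48, 1654),
  (49, 49, 1653), (50, 50, 1651), (51, 51, 1649), (52, 52, 1648),
  (53, 53, 1646), (54, 54, 1644), (55, 55, 1643), (56, 56, 1642),
  (57, 57, 1640), (58, 58, 1639), (59, 59, 1638), (60, 60, 1636),
  (61, 61, 1635), (62, 62, 1634), (63, 63, 1633), (64, 64, 1632),
  (65, 65, 1631), (66, 66, 1630), (67, 67, 1629), (68, 68, 1628),
  (69, 69, 1627), (70, 70, 1626)]

theorem t_pn2_N0_ok : cover (cp (-2)).neg [12] t_pn2_N0 (1) (70) = true := by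
  decide +kernel

def t_pn2_N1 : List (ℤ × ℤ × ℤ) := [
  (71, 71, 1625), (72, 72, 1624), (73, 74, 1623), (75, 75, 1622),
  (76, 76, 1621), (77, 77, 1620), (78, 79, 1619), (80, 80, 1618),
  (81, 82, 1617), (83, 83, 1616), (84, 85, 1615), (86, 86, 1614),
  (87, 88, 1613), (89, 90, 1612), (91, 92, 1611), (93, 94, 1610),
  (95, 96, 1609), (97, 98, 1608), (99, 100, 1607), (101, 102, 1606),
  (103, 104, 1605), (105, 107, 1604), (108, 109, 1603), (110, 112, 1602),
  (113, 115, 1601), (116, 118, 1600), (119, 121, 1599), (122, 124, 1598),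
  (125, 128, 1597), (129, 131, 1596), (132, 135, 1595), (136, 139, 1594),
  (140, 144, 1593), (145, 148, 1592), (149, 153, 1591), (154, 158, 1590),
  (159, 164, 1589), (165, 170, 1588), (171, 176, 1587), (177, 183, 1586),
  (184, 191, 1585), (192, 199, 1584), (200, 207, 1583), (208, 217, 1582),
  (218, 227, 1581), (228, 239, 1580), (240, 252, 1579), (253, 266, 1578),
  (267, 281, 1577), (282, 299, 1576), (300, 319, 1575), (320, 342, 1574),
  (343, 368, 1573), (369, 399, 1572), (400, 435, 1571), (436, 478, 1570),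
  (479, 531, 1569), (532, 596, 1568), (597, 680, 1567), (681, 792, 1566),
  (793, 946, 1565), (947, 1176, 1564), (1177, 1551, 1563), (1552, 2276, 1562),
  (2277, 4271, 1561), (4272, 34195, 1560)]

theorem t_pn2_N1_ok : cover (cp (-2)).neg [12] t_pn2_N1 (71) (34195) = true := by
  decide +kernel

theorem tail_pn2_N_ok : tailOk (cp (-2)).neg (34196) (1559) = true := by decide +kernel

theorem r_pn2_N {M : ℤ} (h1 : 1 ≤ M) (hs : IsSquare ((cp (-2)).neg.D M)) : M ∈ ([12] : List ℤ) := by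
  rcases le_or_gt M (70) with h3 | h3
  · exact cover_spec t_pn2_N0_ok (by omega) h3 hs
  rcases le_or_gt M (34195) with h3 | h3
  · exact cover_spec t_pn2_N1_ok (by omega) h3 hs
  exact absurd hs (tailOk_spec tail_pn2_N_ok (by omega))

theorem sq_pn2 {M : ℤ} (hs : IsSquare ((cp (-2)).D M)) : M = -12 ∨ M = 3 := by
  rcases le_or_gt 0 M with h | h
  · right
    simpa using r_pn2_P h hs
  · have h2 : IsSquare ((cp (-2)).neg.D (-M)) := by rw [Co.D_neg, neg_neg]; exact hs
    have h3 := r_pn2_N (M := -M) (by omega) h2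
    simp only [List.mem_cons, List.not_mem_nil, or_false] at h3
    omega

end Vale.Agent.P231.S3NT
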