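import Vale.Agent.P231.S3NT.Base

/-! Certificate tables: sign `+`, `j = -4`. -/

namespace Vale.Agent.P231.S3NT

def t_pn4_P0 : List (ℤ × ℤ × ℤ) := [
  (0, 0, -734), (1, 1, -521), (2, 2, -272), (3, 3, 0),
  (4, 4, 284), (5, 5, 566), (6, 6, 836), (7, 7, 1083),
  (8, 8, 1305), (9, 9, 1499), (10, 10, 1667), (11, 11, 1811),
  (12, 12, 1934), (13, 13, 2040), (14, 14, 2131), (15, 15, 2209),
  (16, 16, 2277), (17, 17, 2337), (18, 18, 2389), (19, 19, 2435),
  (20, 20, 2476), (21, 21, 2513), (22, 22, 2546), (23, 23, 2575),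
  (24, 24, 2602), (25, 25, 2627), (26, 26, 2649), (27, 27, 2670),
  (28, 28, 2688), (29, 29, 2706), (30, 30, 2722), (31, 31, 2737),
  (32, 32, 2751), (33, 33, 2763), (34, 34, 2776), (35, 35, 2787),
  (36, 36, 2797), (37, 37, 2807), (38, 38, 2817), (39, 39, 2825),
  (40, 40, 2834), (41, 41, 2842), (42, 42, 2849), (43, 43, 2856),
  (44, 44, 2863), (45, 45, 2869), (46, 46, 2875), (47, 47, 2881),
  (48, 48, 2887), (49, 49, 2892), (50, 50, 2897), (51, 51, 2902),
  (52, 52, 2906), (53, 53, 2911), (54, 54, 2915), (55, 55, 2919),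
  (56, 56, 2923), (57, 57, 2927), (58, 58, 2930), (59, 59, 2934),
  (60, 60, 2937), (61, 61, 2941), (62, 62, 2944), (63, 63, 2947),
  (64, 64, 2950), (65, 65, 2952), (66, 66, 2955), (67, 67, 2958),
  (68, 68, 2960), (69, 69, 2963)]

theorem t_pn4_P0_ok : cover (cp (-4)) [3] t_pn4_P0 (0) (69) = true := by
  decide +kernel

def t_pn4_P1 : List (ℤ × ℤ × ℤ) := [
  (70, 70, 2965), (71, 71, 2968), (72, 72, 2970), (73, 73, 2972),
  (74, 74, 2974), (75, 75, 2976), (76, 76, 2978), (77, 77, 2980),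
  (78, 78, 2982), (79, 79, 2984), (80, 80, 2986), (81, 81, 2988),
  (82, 82, 2989), (83, 83, 2991), (84, 84, 2993), (85, 85, 2994),
  (86, 86, 2996), (87, 87, 2997), (88, 88, 2999), (89, 89, 3000),
  (90, 90, 3002), (91, 91, 3003), (92, 92, 3004), (93, 93, 3006),
  (94, 94, 3007), (95, 95, 3008), (96, 96, 3009), (97, 97, 3011),
  (98, 98, 3012), (99, 99, 3013), (100, 100, 3014), (101, 101, 3015),
  (102, 102, 3016), (103, 103, 3017), (104, 104, 3018), (105, 105, 3019),
  (106, 106, 3020), (107, 107, 3021), (108, 108, 3022), (109, 109, 3023),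
  (110, 110, 3024), (111, 111, 3025), (112, 112, 3026), (113, 114, 3027),
  (115, 115, 3028), (116, 116, 3029), (117, 117, 3030), (118, 119, 3031),
  (120, 120, 3032), (121, 121, 3033), (122, 123, 3034), (124, 124, 3035),
  (125, 125, 3036), (126, 127, 3037), (128, 128, 3038), (129, 130, 3039),
  (131, 132, 3040), (133, 133, 3041), (134, 135, 3042), (136, 137, 3043),
  (138, 138, 3044), (139, 140, 3045), (141, 142, 3046), (143, 144, 3047),
  (145, 146, 3048), (147, 148, 3049), (149, 150, 3050), (151, 152, 3051),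
  (153, 155, 3052), (156, 157, 3053)]

theorem t_pn4_P1_ok : cover (cp (-4)) [3] t_pn4_P1 (70) (157) = true := by
  decide +kernel

def t_pn4_P2 : List (ℤ × ℤ × ℤ) := [
  (158, 159, 3054), (160, 162, 3055), (163, 164, 3056), (165, 167, 3057),
  (168, 170, 3058), (171, 172, 3059), (173, 175, 3060), (176, 178, 3061),
  (179, 181, 3062), (182, 185, 3063), (186, 188, 3064), (189, 191, 3065),
  (192, 195, 3066), (196, 199, 3067), (200, 203, 3068), (204, 207, 3069),
  (208, 211, 3070), (212, 215, 3071), (216, 220, 3072), (221, 225, 3073),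
  (226, 230, 3074), (231, 235, 3075), (236, 240, 3076), (241, 246, 3077),
  (247, 252, 3078), (253, 258, 3079), (259, 265, 3080), (266, 272, 3081),
  (273, 280, 3082), (281, 288, 3083), (289, 296, 3084), (297, 305, 3085),
  (306, 314, 3086), (315, 324, 3087), (325, 335, 3088), (336, 346, 3089),
  (347, 359, 3090), (360, 372, 3091), (373, 386, 3092), (387, 402, 3093),
  (403, 418, 3094), (419, 436, 3095), (437, 456, 3096), (457, 478, 3097),
  (479, 502, 3098), (503, 528, 3099), (529, 558, 3100), (559, 591, 3101),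
  (592, 628, 3102), (629, 670, 3103), (671, 719, 3104), (720, 775, 3105),
  (776, 840, 3106), (841, 918, 3107), (919, 1012, 3108), (1013, 1128, 3109),
  (1129, 1273, 3110), (1274, 1462, 3111), (1463, 1716, 3112), (1717, 2079, 3113),
  (2080, 2637, 3114), (2638, 3606, 3115), (3607, 5706, 3116), (5707, 13686, 3117)]

theorem t_pn4_P2_ok : cover (cp (-4)) [3] t_pn4_P2 (158) (13686) = true := by
  decide +kernel

theorem tail_pn4_P_ok : tailOk (cp (-4)) (13687) (3118) = true := by decide +kernel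

theorem r_pn4_P {M : ℤ} (h1 : 0 ≤ M) (hs : IsSquare ((cp (-4)).D M)) : M ∈ ([3] : List ℤ) := by
  rcases le_or_gt M (69) with h3 | h3
  · exact cover_spec t_pn4_P0_ok (by omega) h3 hs
  rcases le_or_gt M (157) with h3 | h3
  · exact cover_spec t_pn4_P1_ok (by omega) h3 hs
  rcases le_or_gt M (13686) with h3 | h3
  · exact cover_spec t_pn4_P2_ok (by omega) h3 hs
  exact absurd hs (tailOk_spec tail_pn4_P_ok (by omega))

def t_pn4_N0 : List (ℤ × ℤ × ℤ) := [
  (1, 1, -903), (2, 2, -1019), (3, 3, -1077), (4, 4, -1070),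
  (5, 5, -997), (6, 6, -855), (7, 7, -642), (8, 8, -358),
  (9, 9, -3), (10, 10, 420), (11, 11, 906), (12, 12, 0),
  (13, 13, 1996), (14, 14, 2511), (15, 15, 2900), (16, 16, 3129),
  (17, 17, 3250), (18, 18, 3313), (19, 19, 3348), (20, 20, 3367),
  (21, 21, 3377), (22, 22, 3381), (23, 23, 3383), (24, 24, 3382),
  (25, 25, 3380), (26, 26, 3376), (27, 27, 3373), (28, 28, 3369),
  (29, 29, 3364), (30, 30, 3360), (31, 31, 3355), (32, 32, 3351),
  (33, 33, 3346), (34, 34, 3342), (35, 35, 3338), (36, 36, 3334),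
  (37, 37, 3329), (38, 38, 3325), (39, 39, 3322), (40, 40, 3318),
  (41, 41, 3314), (42, 42, 3311), (43, 43, 3307), (44, 44, 3304),
  (45, 45, 3301), (46, 46, 3297), (47, 47, 3294), (48, 48, 3291),
  (49, 49, 3288), (50, 50, 3286), (51, 51, 3283), (52, 52, 3280),
  (53, 53, 3278), (54, 54, 3275), (55, 55, 3273), (56, 56, 3271),
  (57, 57, 3268), (58, 58, 3266), (59, 59, 3264), (60, 60, 3262),
  (61, 61, 3260), (62, 62, 3258), (63, 63, 3256), (64, 64, 3254),
  (65, 65, 3252), (66, 66, 3250), (67, 67, 3249), (68, 68, 3247),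
  (69, 69, 3245), (70, 70, 3244)]

theorem t_pn4_N0_ok : cover (cp (-4)).neg [12] t_pn4_N0 (1) (70) = true := by
  decide +kernel

def t_pn4_N1 : List (ℤ × ℤ × ℤ) := [
  (71, 71, 3242), (72, 72, 3241), (73, 73, 3239), (74, 74, 3238),
  (75, 75, 3236), (76, 76, 3235), (77, 77, 3234), (78, 78, 3232),
  (79, 79, 3231), (80, 80, 3230), (81, 81, 3228), (82, 82, 3227),
  (83, 83, 3226), (84, 84, 3225), (85, 85, 3224), (86, 86, 3223),
  (87, 87, 3222), (88, 88, 3220), (89, 89, 3219), (90, 90, 3218),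
  (91, 91, 3217), (92, 92, 3216), (93, 93, 3215), (94, 95, 3214),
  (96, 96, 3213), (97, 97, 3212), (98, 98, 3211), (99, 99, 3210),
  (100, 100, 3209), (101, 102, 3208), (103, 103, 3207), (104, 104, 3206),
  (105, 105, 3205), (106, 107, 3204), (108, 108, 3203), (109, 109, 3202),
  (110, 111, 3201), (112, 112, 3200), (113, 114, 3199), (115, 115, 3198),
  (116, 117, 3197), (118, 119, 3196), (120, 120, 3195), (121, 122, 3194),
  (123, 124, 3193), (125, 126, 3192), (127, 127, 3191), (128, 129, 3190),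
  (130, 131, 3189), (132, 133, 3188), (134, 135, 3187), (136, 137, 3186),
  (138, 140, 3185), (141, 142, 3184), (143, 144, 3183), (145, 147, 3182),
  (148, 149, 3181), (150, 152, 3180), (153, 154, 3179), (155, 157, 3178),
  (158, 160, 3177), (161, 163, 3176), (164, 166, 3175), (167, 169, 3174),
  (170, 172, 3173), (173, 176, 3172), (177, 179, 3171), (180, 183, 3170),
  (184, 187, 3169), (188, 191, 3168)]

theorem t_pn4_N1_ok : cover (cp (-4)).neg [12] t_pn4_N1 (71) (191) = true := by
  decide +kernel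

def t_pn4_N2 : List (ℤ × ℤ × ℤ) := [
  (192, 195, 3167), (196, 199, 3166), (200, 204, 3165), (205, 208, 3164),
  (209, 213, 3163), (214, 218, 3162), (219, 224, 3161), (225, 229, 3160),
  (230, 235, 3159), (236, 241, 3158), (242, 248, 3157), (249, 255, 3156),
  (256, 262, 3155), (263, 269, 3154), (270, 277, 3153), (278, 286, 3152),
  (287, 295, 3151), (296, 305, 3150), (306, 315, 3149), (316, 326, 3148),
  (327, 338, 3147), (339, 351, 3146), (352, 364, 3145), (365, 379, 3144),
  (380, 395, 3143), (396, 412, 3142), (413, 431, 3141), (432, 452, 3140),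
  (453, 474, 3139), (475, 499, 3138), (500, 527, 3137), (528, 558, 3136),
  (559, 593, 3135), (594, 632, 3134), (633, 677, 3133), (678, 728, 3132),
  (729, 788, 3131), (789, 858, 3130), (859, 943, 3129), (944, 1045, 3128),
  (1046, 1172, 3127), (1173, 1334, 3126), (1335, 1547, 3125), (1548, 1841, 3124),
  (1842, 2273, 3123), (2274, 2967, 3122), (2968, 4268, 3121), (4269, 7592, 3120),
  (7593, 34192, 3119)]

theorem t_pn4_N2_ok : cover (cp (-4)).neg [12] t_pn4_N2 (192) (34192) = true := by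
  decide +kernel

theorem tail_pn4_N_ok : tailOk (cp (-4)).neg (34193) (3118) = true := by decide +kernel

theorem r_pn4_N {M : ℤ} (h1 : 1 ≤ M) (hs : IsSquare ((cp (-4)).neg.D M)) : M ∈ ([12] : List ℤ) := by
  rcases le_or_gt M (70) with h3 | h3
  · exact cover_spec t_pn4_N0_ok (by omega) h3 hs
  rcases le_or_gt M (191) with h3 | h3
  · exact cover_spec t_pn4_N1_ok (by omega) h3 hs
  rcases le_or_gt M (34192) with h3 | h3
  · exact cover_spec t_pn4_N2_ok (by omega) h3 hs
  exact absurd hs (tailOk_spec tail_pn4_N_ok (by omega))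

theorem sq_pn4 {M : ℤ} (hs : IsSquare ((cp (-4)).D M)) : M = -12 ∨ M = 3 := by
  rcases le_or_gt 0 M with h | h
  · right
    simpa using r_pn4_P h hs
  · have h2 : IsSquare ((cp (-4)).neg.D (-M)) := by rw [Co.D_neg, neg_neg]; exact hs
    have h3 := r_pn4_N (M := -M) (by omega) h2
    simp only [List.mem_cons, List.not_mem_nil, or_false] at h3
    omega

end Vale.Agent.P231.S3NT
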