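import Vale.Agent.P231.S3NT.Base

/-! Certificate tables: sign `+`, `j = 1`. -/

namespace Vale.Agent.P231.S3NT

def t_pq1_P0 : List (ℤ × ℤ × ℤ) := [
  (0, 0, 0), (1, 1, 0), (2, 2, 0), (3, 3, 0),
  (4, 4, -288), (5, 5, -391), (6, 6, -453), (7, 7, -496),
  (8, 8, -528), (9, 9, -553), (10, 10, -573), (11, 11, -590),
  (12, 12, -604), (13, 13, -616), (14, 14, -626), (15, 15, -636),
  (16, 16, -644), (17, 17, -651), (18, 18, -657), (19, 19, -663),
  (20, 20, -669), (21, 21, -673), (22, 22, -678), (23, 23, -682),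
  (24, 24, -686), (25, 25, -689), (26, 26, -692), (27, 27, -695),
  (28, 28, -698), (29, 29, -701), (30, 30, -703), (31, 31, -705),
  (32, 32, -708), (33, 33, -710), (34, 34, -712), (35, 35, -713),
  (36, 36, -715), (37, 37, -717), (38, 38, -718), (39, 39, -720),
  (40, 40, -721), (41, 41, -722), (42, 42, -724), (43, 43, -725),
  (44, 44, -726), (45, 45, -727), (46, 46, -728), (47, 47, -729),
  (48, 48, -730), (49, 49, -731), (50, 50, -732), (51, 51, -733),
  (52, 52, -734), (53, 53, -735), (54, 55, -736), (56, 56, -737),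
  (57, 58, -738), (59, 59, -739), (60, 61, -740), (62, 62, -741),
  (63, 64, -742), (65, 66, -743), (67, 68, -744), (69, 70, -745),
  (71, 73, -746), (74, 75, -747), (76, 77, -748), (78, 80, -749),
  (81, 83, -750), (84, 86, -751)]

theorem t_pq1_P0_ok : cover (cp (1)) [3] t_pq1_P0 (0) (86) = true := by
  decide +kernel

def t_pq1_P1 : List (ℤ × ℤ × ℤ) := [
  (87, 90, -752), (91, 93, -753), (94, 97, -754), (98, 101, -755),
  (102, 106, -756), (107, 111, -757), (112, 117, -758), (118, 123, -759),
  (124, 130, -760), (131, 137, -761), (138, 146, -762), (147, 156, -763),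
  (157, 166, -764), (167, 179, -765), (180, 194, -766), (195, 211, -767),
  (212, 231, -768), (232, 256, -769), (257, 287, -770), (288, 326, -771),
  (327, 377, -772), (378, 447, -773), (448, 549, -774), (550, 710, -775),
  (711, 1003, -776), (1004, 1707, -777), (1708, 5697, -778)]

theorem t_pq1_P1_ok : cover (cp (1)) [3] t_pq1_P1 (87) (5697) = true := by
  decide +kernel

theorem tail_pq1_P_ok : tailOk (cp (1)) (5698) (-779) = true := by decide +kernel

theorem r_pq1_P {M : ℤ} (h1 : 0 ≤ M) (hs : IsSquare ((cp (1)).D M)) : M ∈ ([3] : List ℤ) := by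
  rcases le_or_gt M (86) with h3 | h3
  · exact cover_spec t_pq1_P0_ok (by omega) h3 hs
  rcases le_or_gt M (5697) with h3 | h3
  · exact cover_spec t_pq1_P1_ok (by omega) h3 hs
  exact absurd hs (tailOk_spec tail_pq1_P_ok (by omega))

def t_pq1_N0 : List (ℤ × ℤ × ℤ) := [
  (1, 1, 0), (2, 2, 0), (3, 3, 0), (4, 4, 0),
  (5, 5, 0), (6, 6, 0), (7, 7, -976), (8, 8, -1061),
  (9, 9, -1070), (10, 10, -1058), (11, 11, -1039), (12, 12, 0),
  (13, 13, -1001), (14, 14, -984), (15, 15, -969), (16, 16, -956),
  (17, 17, -945), (18, 18, -934), (19, 19, -925), (20, 20, -917),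
  (21, 21, -910), (22, 22, -903), (23, 23, -897), (24, 24, -892),
  (25, 25, -887), (26, 26, -882), (27, 27, -878), (28, 28, -874),
  (29, 29, -871), (30, 30, -867), (31, 31, -864), (32, 32, -861),
  (33, 33, -859), (34, 34, -856), (35, 35, -854), (36, 36, -852),
  (37, 37, -850), (38, 38, -848), (39, 39, -846), (40, 40, -844),
  (41, 41, -842), (42, 42, -841), (43, 43, -839), (44, 44, -838),
  (45, 45, -836), (46, 46, -835), (47, 47, -834), (48, 48, -832),
  (49, 49, -831), (50, 50, -830), (51, 51, -829), (52, 52, -828),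
  (53, 53, -827), (54, 54, -826), (55, 55, -825), (56, 57, -824),
  (58, 58, -823), (59, 59, -822), (60, 61, -821), (62, 62, -820),
  (63, 64, -819), (65, 65, -818), (66, 67, -817), (68, 69, -816),
  (70, 71, -815), (72, 73, -814), (74, 75, -813), (76, 77, -812),
  (78, 79, -811), (80, 82, -810)]

theorem t_pq1_N0_ok : cover (cp (1)).neg [12] t_pq1_N0 (1) (82) = true := by
  decide +kernel

def t_pq1_N1 : List (ℤ × ℤ × ℤ) := [
  (83, 84, -809), (85, 87, -808), (88, 90, -807), (91, 94, -806),
  (95, 97, -805), (98, 101, -804), (102, 106, -803), (107, 110, -802),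
  (111, 115, -801), (116, 121, -800), (122, 127, -799), (128, 133, -798),
  (134, 141, -797), (142, 149, -796), (150, 159, -795), (160, 170, -794),
  (171, 182, -793), (183, 196, -792), (197, 213, -791), (214, 233, -790),
  (234, 257, -789), (258, 287, -788), (288, 324, -787), (325, 374, -786),
  (375, 440, -785), (441, 536, -784), (537, 686, -783), (687, 952, -782),
  (953, 1556, -781), (1557, 4277, -780)]

theorem t_pq1_N1_ok : cover (cp (1)).neg [12] t_pq1_N1 (83) (4277) = true := by
  decide +kernel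

theorem tail_pq1_N_ok : tailOk (cp (1)).neg (4278) (-779) = true := by decide +kernel

theorem r_pq1_N {M : ℤ} (h1 : 1 ≤ M) (hs : IsSquare ((cp (1)).neg.D M)) : M ∈ ([12] : List ℤ) := by
  rcases le_or_gt M (82) with h3 | h3
  · exact cover_spec t_pq1_N0_ok (by omega) h3 hs
  rcases le_or_gt M (4277) with h3 | h3
  · exact cover_spec t_pq1_N1_ok (by omega) h3 hs
  exact absurd hs (tailOk_spec tail_pq1_N_ok (by omega))

theorem sq_pq1 {M : ℤ} (hs : IsSquare ((cp (1)).D M)) : M = -12 ∨ M = 3 := by
  rcases le_or_gt 0 M with h | h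
  · right
    simpa using r_pq1_P h hs
  · have h2 : IsSquare ((cp (1)).neg.D (-M)) := by rw [Co.D_neg, neg_neg]; exact hs
    have h3 := r_pq1_N (M := -M) (by omega) h2
    simp only [List.mem_cons, List.not_mem_nil, or_false] at h3
    omega

end Vale.Agent.P231.S3NT
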