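import Vale.Agent.P231.S3NT.Base

/-! Certificate tables: sign `+`, `j = 2`. -/

namespace Vale.Agent.P231.S3NT

def t_pq2_P0 : List (ℤ × ℤ × ℤ) := [
  (0, 0, 0), (1, 1, 0), (2, 2, 0), (3, 3, 0),
  (4, 4, -842), (5, 5, -966), (6, 6, -1045), (7, 7, -1101),
  (8, 8, -1144), (9, 9, -1179), (10, 10, -1208), (11, 11, -1233),
  (12, 12, -1254), (13, 13, -1272), (14, 14, -1288), (15, 15, -1303),
  (16, 16, -1316), (17, 17, -1327), (18, 18, -1338), (19, 19, -1348),
  (20, 20, -1356), (21, 21, -1364), (22, 22, -1372), (23, 23, -1379),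
  (24, 24, -1385), (25, 25, -1391), (26, 26, -1397), (27, 27, -1402),
  (28, 28, -1407), (29, 29, -1411), (30, 30, -1416), (31, 31, -1420),
  (32, 32, -1423), (33, 33, -1427), (34, 34, -1431), (35, 35, -1434),
  (36, 36, -1437), (37, 37, -1440), (38, 38, -1443), (39, 39, -1445),
  (40, 40, -1448), (41, 41, -1450), (42, 42, -1453), (43, 43, -1455),
  (44, 44, -1457), (45, 45, -1459), (46, 46, -1461), (47, 47, -1463),
  (48, 48, -1465), (49, 49, -1467), (50, 50, -1468), (51, 51, -1470),
  (52, 52, -1471), (53, 53, -1473), (54, 54, -1474), (55, 55, -1476),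
  (56, 56, -1477), (57, 57, -1479), (58, 58, -1480), (59, 59, -1481),
  (60, 60, -1482), (61, 61, -1483), (62, 62, -1485), (63, 63, -1486),
  (64, 64, -1487), (65, 65, -1488), (66, 66, -1489), (67, 67, -1490),
  (68, 68, -1491), (69, 69, -1492)]

theorem t_pq2_P0_ok : cover (cp (2)) [3] t_pq2_P0 (0) (69) = true := by
  decide +kernel

def t_pq2_P1 : List (ℤ × ℤ × ℤ) := [
  (70, 71, -1493), (72, 72, -1494), (73, 73, -1495), (74, 74, -1496),
  (75, 76, -1497), (77, 77, -1498), (78, 78, -1499), (79, 80, -1500),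
  (81, 81, -1501), (82, 83, -1502), (84, 84, -1503), (85, 86, -1504),
  (87, 88, -1505), (89, 89, -1506), (90, 91, -1507), (92, 93, -1508),
  (94, 95, -1509), (96, 97, -1510), (98, 100, -1511), (101, 102, -1512),
  (103, 104, -1513), (105, 107, -1514), (108, 109, -1515), (110, 112, -1516),
  (113, 115, -1517), (116, 118, -1518), (119, 121, -1519), (122, 124, -1520),
  (125, 128, -1521), (129, 132, -1522), (133, 135, -1523), (136, 140, -1524),
  (141, 144, -1525), (145, 149, -1526), (150, 154, -1527), (155, 159, -1528),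
  (160, 165, -1529), (166, 171, -1530), (172, 177, -1531), (178, 184, -1532),
  (185, 192, -1533), (193, 200, -1534), (201, 209, -1535), (210, 219, -1536),
  (220, 230, -1537), (231, 241, -1538), (242, 254, -1539), (255, 269, -1540),
  (270, 285, -1541), (286, 303, -1542), (304, 324, -1543), (325, 348, -1544),
  (349, 375, -1545), (376, 407, -1546), (408, 445, -1547), (446, 491, -1548),
  (492, 547, -1549), (548, 617, -1550), (618, 708, -1551), (709, 829, -1552),
  (830, 1001, -1553), (1002, 1262, -1554), (1263, 1705, -1555), (1706, 2626, -1556),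
  (2627, 5695, -1557)]

theorem t_pq2_P1_ok : cover (cp (2)) [3] t_pq2_P1 (70) (5695) = true := by
  decide +kernel

theorem tail_pq2_P_ok : tailOk (cp (2)) (5696) (-1558) = true := by decide +kernel

theorem r_pq2_P {M : ℤ} (h1 : 0 ≤ M) (hs : IsSquare ((cp (2)).D M)) : M ∈ ([3] : List ℤ) := by
  rcases le_or_gt M (69) with h3 | h3
  · exact cover_spec t_pq2_P0_ok (by omega) h3 hs
  rcases le_or_gt M (5695) with h3 | h3
  · exact cover_spec t_pq2_P1_ok (by omega) h3 hs
  exact absurd hs (tailOk_spec tail_pq2_P_ok (by omega))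

def t_pq2_N0 : List (ℤ × ℤ × ℤ) := [
  (1, 1, 0), (2, 2, 0), (3, 3, 0), (4, 4, 0),
  (5, 5, -1586), (6, 6, -1897), (7, 7, -2018), (8, 8, -2073),
  (9, 9, -2090), (10, 10, -2084), (11, 11, -2065), (12, 12, 0),
  (13, 13, -2012), (14, 14, -1984), (15, 15, -1957), (16, 16, -1932),
  (17, 17, -1909), (18, 18, -1888), (19, 19, -1869), (20, 20, -1852),
  (21, 21, -1837), (22, 22, -1823), (23, 23, -1810), (24, 24, -1798),
  (25, 25, -1787), (26, 26, -1777), (27, 27, -1768), (28, 28, -1760),
  (29, 29, -1752), (30, 30, -1745), (31, 31, -1738), (32, 32, -1732),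
  (33, 33, -1726), (34, 34, -1721), (35, 35, -1715), (36, 36, -1711),
  (37, 37, -1706), (38, 38, -1702), (39, 39, -1698), (40, 40, -1694),
  (41, 41, -1690), (42, 42, -1687), (43, 43, -1684), (44, 44, -1680),
  (45, 45, -1677), (46, 46, -1675), (47, 47, -1672), (48, 48, -1669),
  (49, 49, -1667), (50, 50, -1665), (51, 51, -1662), (52, 52, -1660),
  (53, 53, -1658), (54, 54, -1656), (55, 55, -1654), (56, 56, -1652),
  (57, 57, -1651), (58, 58, -1649), (59, 59, -1647), (60, 60, -1646),
  (61, 61, -1644), (62, 62, -1643), (63, 63, -1641), (64, 64, -1640),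
  (65, 65, -1639), (66, 66, -1637), (67, 67, -1636), (68, 68, -1635),
  (69, 69, -1634), (70, 70, -1632)]

theorem t_pq2_N0_ok : cover (cp (2)).neg [12] t_pq2_N0 (1) (70) = true := by
  decide +kernel

def t_pq2_N1 : List (ℤ × ℤ × ℤ) := [
  (71, 71, -1631), (72, 72, -1630), (73, 73, -1629), (74, 74, -1628),
  (75, 75, -1627), (76, 76, -1626), (77, 77, -1625), (78, 79, -1624),
  (80, 80, -1623), (81, 81, -1622), (82, 82, -1621), (83, 83, -1620),
  (84, 85, -1619), (86, 86, -1618), (87, 88, -1617), (89, 89, -1616),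
  (90, 91, -1615), (92, 92, -1614), (93, 94, -1613), (95, 96, -1612),
  (97, 97, -1611), (98, 99, -1610), (100, 101, -1609), (102, 103, -1608),
  (104, 105, -1607), (106, 107, -1606), (108, 109, -1605), (110, 112, -1604),
  (113, 114, -1603), (115, 117, -1602), (118, 120, -1601), (121, 122, -1600),
  (123, 125, -1599), (126, 128, -1598), (129, 132, -1597), (133, 135, -1596),
  (136, 139, -1595), (140, 143, -1594), (144, 147, -1593), (148, 151, -1592),
  (152, 156, -1591), (157, 161, -1590), (162, 166, -1589), (167, 171, -1588),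
  (172, 177, -1587), (178, 184, -1586), (185, 191, -1585), (192, 198, -1584),
  (199, 206, -1583), (207, 215, -1582), (216, 224, -1581), (225, 235, -1580),
  (236, 246, -1579), (247, 259, -1578), (260, 273, -1577), (274, 289, -1576),
  (290, 306, -1575), (307, 326, -1574), (327, 349, -1573), (350, 375, -1572),
  (376, 406, -1571), (407, 442, -1570), (443, 485, -1569), (486, 538, -1568),
  (539, 604, -1567), (605, 688, -1566), (689, 799, -1565), (800, 954, -1564),
  (955, 1183, -1563), (1184, 1558, -1562)]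

theorem t_pq2_N1_ok : cover (cp (2)).neg [12] t_pq2_N1 (71) (1558) = true := by
  decide +kernel

def t_pq2_N2 : List (ℤ × ℤ × ℤ) := [
  (1559, 2284, -1561), (2285, 4279, -1560), (4280, 34203, -1559)]

theorem t_pq2_N2_ok : cover (cp (2)).neg [12] t_pq2_N2 (1559) (34203) = true := by
  decide +kernel

theorem tail_pq2_N_ok : tailOk (cp (2)).neg (34204) (-1558) = true := by decide +kernel

theorem r_pq2_N {M : ℤ} (h1 : 1 ≤ M) (hs : IsSquare ((cp (2)).neg.D M)) : M ∈ ([12] : List ℤ) := by
  rcases le_or_gt M (70) with h3 | h3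
  · exact cover_spec t_pq2_N0_ok (by omega) h3 hs
  rcases le_or_gt M (1558) with h3 | h3
  · exact cover_spec t_pq2_N1_ok (by omega) h3 hs
  rcases le_or_gt M (34203) with h3 | h3
  · exact cover_spec t_pq2_N2_ok (by omega) h3 hs
  exact absurd hs (tailOk_spec tail_pq2_N_ok (by omega))

theorem sq_pq2 {M : ℤ} (hs : IsSquare ((cp (2)).D M)) : M = -12 ∨ M = 3 := by
  rcases le_or_gt 0 M with h | h
  · right
    simpa using r_pq2_P h hs
  · have h2 : IsSquare ((cp (2)).neg.D (-M)) := by rw [Co.D_neg, neg_neg]; exact hs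
    have h3 := r_pq2_N (M := -M) (by omega) h2
    simp only [List.mem_cons, List.not_mem_nil, or_false] at h3
    omega

end Vale.Agent.P231.S3NT
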