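import Vale.Agent.P231.S3NT.Base

/-! Certificate tables: sign `+`, `j = 4`. -/

namespace Vale.Agent.P231.S3NT

def t_pq4_P0 : List (ℤ × ℤ × ℤ) := [
  (0, 0, -2829), (1, 1, -2673), (2, 2, -2586), (3, 3, 0),
  (4, 4, -2542), (5, 5, -2549), (6, 6, -2563), (7, 7, -2581),
  (8, 8, -2601), (9, 9, -2620), (10, 10, -2639), (11, 11, -2658),
  (12, 12, -2676), (13, 13, -2692), (14, 14, -2708), (15, 15, -2723),
  (16, 16, -2737), (17, 17, -2750), (18, 18, -2762), (19, 19, -2774),
  (20, 20, -2785), (21, 21, -2795), (22, 22, -2805), (23, 23, -2814),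
  (24, 24, -2823), (25, 25, -2831), (26, 26, -2839), (27, 27, -2846),
  (28, 28, -2853), (29, 29, -2860), (30, 30, -2866), (31, 31, -2872),
  (32, 32, -2878), (33, 33, -2884), (34, 34, -2889), (35, 35, -2894),
  (36, 36, -2899), (37, 37, -2904), (38, 38, -2908), (39, 39, -2912),
  (40, 40, -2917), (41, 41, -2921), (42, 42, -2924), (43, 43, -2928),
  (44, 44, -2932), (45, 45, -2935), (46, 46, -2938), (47, 47, -2941),
  (48, 48, -2945), (49, 49, -2947), (50, 50, -2950), (51, 51, -2953),
  (52, 52, -2956), (53, 53, -2958), (54, 54, -2961), (55, 55, -2963),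
  (56, 56, -2966), (57, 57, -2968), (58, 58, -2970), (59, 59, -2972),
  (60, 60, -2974), (61, 61, -2976), (62, 62, -2978), (63, 63, -2980),
  (64, 64, -2982), (65, 65, -2984), (66, 66, -2986), (67, 67, -2988),
  (68, 68, -2989), (69, 69, -2991)]

theorem t_pq4_P0_ok : cover (cp (4)) [3] t_pq4_P0 (0) (69) = true := by
  decide +kernel

def t_pq4_P1 : List (ℤ × ℤ × ℤ) := [
  (70, 70, -2993), (71, 71, -2994), (72, 72, -2996), (73, 73, -2997),
  (74, 74, -2999), (75, 75, -3000), (76, 76, -3001), (77, 77, -3003),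
  (78, 78, -3004), (79, 79, -3005), (80, 80, -3007), (81, 81, -3008),
  (82, 82, -3009), (83, 83, -3010), (84, 84, -3011), (85, 85, -3012),
  (86, 86, -3014), (87, 87, -3015), (88, 88, -3016), (89, 89, -3017),
  (90, 90, -3018), (91, 91, -3019), (92, 92, -3020), (93, 93, -3021),
  (94, 94, -3022), (95, 96, -3023), (97, 97, -3024), (98, 98, -3025),
  (99, 99, -3026), (100, 100, -3027), (101, 101, -3028), (102, 103, -3029),
  (104, 104, -3030), (105, 105, -3031), (106, 107, -3032), (108, 108, -3033),
  (109, 109, -3034), (110, 111, -3035), (112, 112, -3036), (113, 114, -3037),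
  (115, 115, -3038), (116, 117, -3039), (118, 119, -3040), (120, 120, -3041),
  (121, 122, -3042), (123, 124, -3043), (125, 126, -3044), (127, 128, -3045),
  (129, 130, -3046), (131, 132, -3047), (133, 134, -3048), (135, 136, -3049),
  (137, 138, -3050), (139, 140, -3051), (141, 142, -3052), (143, 145, -3053),
  (146, 147, -3054), (148, 150, -3055), (151, 152, -3056), (153, 155, -3057),
  (156, 158, -3058), (159, 161, -3059), (162, 164, -3060), (165, 167, -3061),
  (168, 170, -3062), (171, 173, -3063), (174, 177, -3064), (178, 180, -3065),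
  (181, 184, -3066), (185, 188, -3067)]

theorem t_pq4_P1_ok : cover (cp (4)) [3] t_pq4_P1 (70) (188) = true := by
  decide +kernel

def t_pq4_P2 : List (ℤ × ℤ × ℤ) := [
  (189, 192, -3068), (193, 196, -3069), (197, 201, -3070), (202, 205, -3071),
  (206, 210, -3072), (211, 215, -3073), (216, 220, -3074), (221, 226, -3075),
  (227, 231, -3076), (232, 238, -3077), (239, 244, -3078), (245, 251, -3079),
  (252, 258, -3080), (259, 265, -3081), (266, 273, -3082), (274, 281, -3083),
  (282, 290, -3084), (291, 300, -3085), (301, 310, -3086), (311, 320, -3087),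
  (321, 332, -3088), (333, 344, -3089), (345, 357, -3090), (358, 372, -3091),
  (373, 387, -3092), (388, 404, -3093), (405, 422, -3094), (423, 442, -3095),
  (443, 463, -3096), (464, 487, -3097), (488, 514, -3098), (515, 543, -3099),
  (544, 576, -3100), (577, 613, -3101), (614, 656, -3102), (657, 704, -3103),
  (705, 760, -3104), (761, 826, -3105), (827, 904, -3106), (905, 997, -3107),
  (998, 1113, -3108), (1114, 1258, -3109), (1259, 1447, -3110), (1448, 1702, -3111),
  (1703, 2064, -3112), (2065, 2622, -3113), (2623, 3592, -3114), (3593, 5691, -3115),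
  (5692, 13671, -3116)]

theorem t_pq4_P2_ok : cover (cp (4)) [3] t_pq4_P2 (189) (13671) = true := by
  decide +kernel

theorem tail_pq4_P_ok : tailOk (cp (4)) (13672) (-3117) = true := by decide +kernel

theorem r_pq4_P {M : ℤ} (h1 : 0 ≤ M) (hs : IsSquare ((cp (4)).D M)) : M ∈ ([3] : List ℤ) := by
  rcases le_or_gt M (69) with h3 | h3
  · exact cover_spec t_pq4_P0_ok (by omega) h3 hs
  rcases le_or_gt M (188) with h3 | h3
  · exact cover_spec t_pq4_P1_ok (by omega) h3 hs
  rcases le_or_gt M (13671) with h3 | h3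
  · exact cover_spec t_pq4_P2_ok (by omega) h3 hs
  exact absurd hs (tailOk_spec tail_pq4_P_ok (by omega))

def t_pq4_N0 : List (ℤ × ℤ × ℤ) := [
  (1, 1, -3043), (2, 2, -3281), (3, 3, -3508), (4, 4, -3704),
  (5, 5, -3862), (6, 6, -3981), (7, 7, -4062), (8, 8, -4110),
  (9, 9, -4130), (10, 10, -4128), (11, 11, -4110), (12, 12, 0),
  (13, 13, -4042), (14, 14, -4000), (15, 15, -3957), (16, 16, -3914),
  (17, 17, -3873), (18, 18, -3833), (19, 19, -3796), (20, 20, -3761),
  (21, 21, -3728), (22, 22, -3698), (23, 23, -3670), (24, 24, -3644),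
  (25, 25, -3621), (26, 26, -3599), (27, 27, -3578), (28, 28, -3559),
  (29, 29, -3542), (30, 30, -3525), (31, 31, -3510), (32, 32, -3496),
  (33, 33, -3483), (34, 34, -3470), (35, 35, -3459), (36, 36, -3448),
  (37, 37, -3437), (38, 38, -3428), (39, 39, -3418), (40, 40, -3410),
  (41, 41, -3401), (42, 42, -3394), (43, 43, -3386), (44, 44, -3379),
  (45, 45, -3373), (46, 46, -3366), (47, 47, -3360), (48, 48, -3355),
  (49, 49, -3349), (50, 50, -3344), (51, 51, -3339), (52, 52, -3334),
  (53, 53, -3329), (54, 54, -3325), (55, 55, -3321), (56, 56, -3317),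
  (57, 57, -3313), (58, 58, -3309), (59, 59, -3305), (60, 60, -3302),
  (61, 61, -3298), (62, 62, -3295), (63, 63, -3292), (64, 64, -3289),
  (65, 65, -3286), (66, 66, -3283), (67, 67, -3280), (68, 68, -3278),
  (69, 69, -3275), (70, 70, -3273)]

theorem t_pq4_N0_ok : cover (cp (4)).neg [12] t_pq4_N0 (1) (70) = true := by
  decide +kernel

def t_pq4_N1 : List (ℤ × ℤ × ℤ) := [
  (71, 71, -3270), (72, 72, -3268), (73, 73, -3266), (74, 74, -3264),
  (75, 75, -3261), (76, 76, -3259), (77, 77, -3257), (78, 78, -3255),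
  (79, 79, -3253), (80, 80, -3252), (81, 81, -3250), (82, 82, -3248),
  (83, 83, -3246), (84, 84, -3245), (85, 85, -3243), (86, 86, -3241),
  (87, 87, -3240), (88, 88, -3238), (89, 89, -3237), (90, 90, -3235),
  (91, 91, -3234), (92, 92, -3233), (93, 93, -3231), (94, 94, -3230),
  (95, 95, -3229), (96, 96, -3227), (97, 97, -3226), (98, 98, -3225),
  (99, 99, -3224), (100, 100, -3223), (101, 101, -3222), (102, 102, -3221),
  (103, 103, -3219), (104, 104, -3218), (105, 105, -3217), (106, 106, -3216),
  (107, 107, -3215), (108, 108, -3214), (109, 109, -3213), (110, 111, -3212),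
  (112, 112, -3211), (113, 113, -3210), (114, 114, -3209), (115, 115, -3208),
  (116, 116, -3207), (117, 118, -3206), (119, 119, -3205), (120, 120, -3204),
  (121, 122, -3203), (123, 123, -3202), (124, 124, -3201), (125, 126, -3200),
  (127, 127, -3199), (128, 129, -3198), (130, 130, -3197), (131, 132, -3196),
  (133, 133, -3195), (134, 135, -3194), (136, 137, -3193), (138, 139, -3192),
  (140, 140, -3191), (141, 142, -3190), (143, 144, -3189), (145, 146, -3188),
  (147, 148, -3187), (149, 150, -3186), (151, 152, -3185), (153, 154, -3184),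
  (155, 157, -3183), (158, 159, -3182)]

theorem t_pq4_N1_ok : cover (cp (4)).neg [12] t_pq4_N1 (71) (159) = true := by
  decide +kernel

def t_pq4_N2 : List (ℤ × ℤ × ℤ) := [
  (160, 161, -3181), (162, 164, -3180), (165, 167, -3179), (168, 169, -3178),
  (170, 172, -3177), (173, 175, -3176), (176, 178, -3175), (179, 181, -3174),
  (182, 184, -3173), (185, 187, -3172), (188, 190, -3171), (191, 194, -3170),
  (195, 198, -3169), (199, 201, -3168), (202, 205, -3167), (206, 209, -3166),
  (210, 214, -3165), (215, 218, -3164), (219, 223, -3163), (224, 228, -3162),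
  (229, 233, -3161), (234, 238, -3160), (239, 244, -3159), (245, 250, -3158),
  (251, 256, -3157), (257, 262, -3156), (263, 269, -3155), (270, 276, -3154),
  (277, 284, -3153), (285, 292, -3152), (293, 301, -3151), (302, 310, -3150),
  (311, 320, -3149), (321, 330, -3148), (331, 341, -3147), (342, 353, -3146),
  (354, 365, -3145), (366, 379, -3144), (380, 394, -3143), (395, 410, -3142),
  (411, 427, -3141), (428, 446, -3140), (447, 466, -3139), (467, 489, -3138),
  (490, 514, -3137), (515, 542, -3136), (543, 573, -3135), (574, 607, -3134),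
  (608, 646, -3133), (647, 691, -3132), (692, 743, -3131), (744, 803, -3130),
  (804, 873, -3129), (874, 957, -3128), (958, 1060, -3127), (1061, 1187, -3126),
  (1188, 1348, -3125), (1349, 1562, -3124), (1563, 1856, -3123), (1857, 2287, -3122),
  (2288, 2981, -3121), (2982, 4282, -3120), (4283, 7607, -3119), (7608, 34206, -3118)]

theorem t_pq4_N2_ok : cover (cp (4)).neg [12] t_pq4_N2 (160) (34206) = true := by
  decide +kernel

theorem tail_pq4_N_ok : tailOk (cp (4)).neg (34207) (-3117) = true := by decide +kernel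

theorem r_pq4_N {M : ℤ} (h1 : 1 ≤ M) (hs : IsSquare ((cp (4)).neg.D M)) : M ∈ ([12] : List ℤ) := by
  rcases le_or_gt M (70) with h3 | h3
  · exact cover_spec t_pq4_N0_ok (by omega) h3 hs
  rcases le_or_gt M (159) with h3 | h3
  · exact cover_spec t_pq4_N1_ok (by omega) h3 hs
  rcases le_or_gt M (34206) with h3 | h3
  · exact cover_spec t_pq4_N2_ok (by omega) h3 hs
  exact absurd hs (tailOk_spec tail_pq4_N_ok (by omega))

theorem sq_pq4 {M : ℤ} (hs : IsSquare ((cp (4)).D M)) : M = -12 ∨ M = 3 := by
  rcases le_or_gt 0 M with h | h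
  · right
    simpa using r_pq4_P h hs
  · have h2 : IsSquare ((cp (4)).neg.D (-M)) := by rw [Co.D_neg, neg_neg]; exact hs
    have h3 := r_pq4_N (M := -M) (by omega) h2
    simp only [List.mem_cons, List.not_mem_nil, or_false] at h3
    omega

end Vale.Agent.P231.S3NT
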