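import Vale.Agent.P231.S3NT.Tpn1
import Vale.Agent.P231.S3NT.Tpn2
import Vale.Agent.P231.S3NT.Tpn4
import Vale.Agent.P231.S3NT.Tpq1
import Vale.Agent.P231.S3NT.Tpq2
import Vale.Agent.P231.S3NT.Tpq4
import Vale.Agent.P231.S3NT.Tmn1
import Vale.Agent.P231.S3NT.Tmn2
import Vale.Agent.P231.S3NT.Tmn4
import Vale.Agent.P231.S3NT.Tmq1
import Vale.Agent.P231.S3NT.Tmq2
import Vale.Agent.P231.S3NT.Tmq4

/-!
# P231, Stage 3 (`OP²`): the number theory of the level two relation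

Notation: `12 u² = -μ e⁴ u - α e⁸`, `p₃(ξ) = α e⁶ + μ e² u`, `μ = M ∈ ℤ`, `α ∈ {±1/2, ±1, ±2}`;
`e(E') = a ẽ⁷ + b₁ ẽ³ u`, `b₁ = 12 - 4 μ`, `e = 2 ẽ`;
the level two relation `(a ẽ⁷ + b₁ ẽ³ u)(g ẽ⁴ + 3 u) = ±P̃`,
`P̃ = 4 P(e,u) - 2 P(ẽ,u) = -255 (α - μ²/12) ẽ⁷ u + (4095/12) μ α ẽ¹¹`, is
`a g = 64 α b₁ ± (1365/4) μ α`, `3 a + b₁ g = 4 μ b₁ ± ((85/4) μ² - 255 α)`.
With `a` rational it forces `μ = -12` or `μ = 3`.
-/

namespace Vale.Agent.P231.S3NT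

theorem sq_cp {j M : ℤ} (hj : j ∣ 4) (hs : IsSquare ((cp j).D M)) : M = -12 ∨ M = 3 := by
  have h1 : |j| ≤ 4 := by
    have := Int.le_of_dvd (by norm_num) ((abs_dvd j 4).2 hj)
    exact this
  have h2 := abs_le.1 h1
  obtain ⟨k, hk⟩ := hj
  have h3 : j = -4 ∨ j = -2 ∨ j = -1 ∨ j = 1 ∨ j = 2 ∨ j = 4 := by
    have h4 : -4 ≤ j := h2.1
    have h5 : j ≤ 4 := h2.2
    interval_cases j <;> omega
  rcases h3 with rfl | rfl | rfl | rfl | rfl | rfl
  · exact sq_pn4 hs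
  · exact sq_pn2 hs
  · exact sq_pn1 hs
  · exact sq_pq1 hs
  · exact sq_pq2 hs
  · exact sq_pq4 hs

theorem sq_cm {j M : ℤ} (hj : j ∣ 4) (hs : IsSquare ((cm j).D M)) : M = -12 ∨ M = 3 := by
  have h1 : |j| ≤ 4 := by
    have := Int.le_of_dvd (by norm_num) ((abs_dvd j 4).2 hj)
    exact this
  have h2 := abs_le.1 h1
  obtain ⟨k, hk⟩ := hj
  have h3 : j = -4 ∨ j = -2 ∨ j = -1 ∨ j = 1 ∨ j = 2 ∨ j = 4 := by
    have h4 : -4 ≤ j := h2.1
    have h5 : j ≤ 4 := h2.2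
    interval_cases j <;> omega
  rcases h3 with rfl | rfl | rfl | rfl | rfl | rfl
  · exact sq_mn4 hs
  · exact sq_mn2 hs
  · exact sq_mn1 hs
  · exact sq_mq1 hs
  · exact sq_mq2 hs
  · exact sq_mq4 hs

/-- an integer which is the square of a rational number is a square -/
theorem isSquare_of_rat {n : ℤ} {q : ℚ} (h : (n : ℝ) = (q : ℝ) ^ 2) : IsSquare n := by
  have h1 : (n : ℚ) = q ^ 2 := by exact_mod_cast h
  have h2 : IsSquare (n : ℚ) := ⟨q, by rw [h1, sq]⟩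
  exact_mod_cast h2

/-- **The level two relation with rational `a`, integral `μ` and `α ∈ {±1/2, ±1, ±2}`**
(`α = j / 2`, `j ∣ 4`; both signs `σ = ±1`). -/
theorem level_two {σ al g : ℝ} {a : ℚ} {j M : ℤ} (hσ : σ = 1 ∨ σ = -1) (hj : j ∣ 4)
    (hal : al = j / 2)
    (h1 : a * g = 64 * al * (12 - 4 * M) + σ * (1365 / 4 * M * al))
    (h2 : 3 * a + (12 - 4 * M) * g =
      4 * M * (12 - 4 * M) + σ * (85 / 4 * M ^ 2 - 255 * al)) :
    M = -12 ∨ M = 3 := by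
  rcases hσ with rfl | rfl
  · refine sq_cp hj (isSquare_of_rat (q := 4 * (6 * a -
      (4 * M * (12 - 4 * M) + (85 / 4 * M ^ 2 - 255 * (j / 2))))) ?_)
    rw [cp_D]
    push_cast
    subst hal
    have e : (12 - 4 * (M : ℝ)) * g = 4 * M * (12 - 4 * M) +
        1 * (85 / 4 * M ^ 2 - 255 * (j / 2)) - 3 * a := by linarith
    have e2 : (a : ℝ) * ((12 - 4 * (M : ℝ)) * g) = (12 - 4 * (M : ℝ)) *
        (64 * (j / 2) * (12 - 4 * M) + 1 * (1365 / 4 * M * (j / 2))) := by rw [← h1]; ring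
    rw [e] at e2
    linear_combination 192 * e2
  · refine sq_cm hj (isSquare_of_rat (q := 4 * (6 * a -
      (4 * M * (12 - 4 * M) - (85 / 4 * M ^ 2 - 255 * (j / 2))))) ?_)
    rw [cm_D]
    push_cast
    subst hal
    have e : (12 - 4 * (M : ℝ)) * g = 4 * M * (12 - 4 * M) +
        (-1) * (85 / 4 * M ^ 2 - 255 * (j / 2)) - 3 * a := by linarith
    have e2 : (a : ℝ) * ((12 - 4 * (M : ℝ)) * g) = (12 - 4 * (M : ℝ)) *
        (64 * (j / 2) * (12 - 4 * M) + (-1) * (1365 / 4 * M * (j / 2))) := by rw [← h1]; ring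
    rw [e] at e2
    linear_combination 192 * e2

/-- **The end of Stage 3.** `N = 2 / |α|` integral, `μ = M` integral, `α + μ m / 2 = P` with
`m, P` integral (`2 u[G₄] = m`, `p₃(ξ)[G₆] = P`), `a` rational and the level two relation: then
`E ≤ 78`, where `E = (N³ μ² + 24 N²) / 16` (for `α < 0`). -/
theorem E_le {σ al g : ℝ} {a : ℚ} {N M m P : ℤ} (hσ : σ = 1 ∨ σ = -1) (hN : |al| * N = 2)
    (hP : al + M * m / 2 = P)
    (h1 : a * g = 64 * al * (12 - 4 * M) + σ * (1365 / 4 * M * al))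
    (h2 : 3 * a + (12 - 4 * M) * g =
      4 * M * (12 - 4 * M) + σ * (85 / 4 * M ^ 2 - 255 * al)) :
    ((N : ℝ) ^ 3 * M ^ 2 + 24 * N ^ 2) / 16 ≤ 78 := by
  have hal : al = ((2 * P - M * m : ℤ) : ℝ) / 2 := by push_cast; linarith
  have hjN : |2 * P - M * m| * N = 4 := by
    have : (|((2 * P - M * m : ℤ) : ℝ)| : ℝ) * N = 4 := by
      rw [hal, abs_div] at hN
      have h3 : |(2 : ℝ)| = 2 := abs_of_pos (by norm_num)
      rw [h3] at hN
      linarith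
    exact_mod_cast this
  have hNpos : 0 < N := by
    by_contra h
    have : |2 * P - M * m| * N ≤ 0 := mul_nonpos_of_nonneg_of_nonpos (abs_nonneg _) (by omega)
    omega
  have hj : (2 * P - M * m) ∣ 4 := by
    rw [← abs_dvd]; exact ⟨N, hjN.symm⟩
  have hN4 : N ≤ 4 := Int.le_of_dvd (by norm_num) ⟨|2 * P - M * m|, by rw [← hjN]; ring⟩
  rcases level_two hσ hj hal h1 h2 with rfl | rfl
  · have h5 : 2 * P - (-12) * m = 2 * (P + 6 * m) := by ring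
    have h6 : |P + 6 * m| * N = 2 := by
      rw [h5, abs_mul] at hjN
      have : |(2 : ℤ)| = 2 := rfl
      rw [this] at hjN
      linarith
    have hN2 : N ≤ 2 := Int.le_of_dvd (by norm_num) ⟨|P + 6 * m|, by rw [← h6]; ring⟩
    have : N = 1 ∨ N = 2 := by omega
    rcases this with rfl | rfl <;> norm_num
  · have : N = 1 ∨ N = 2 ∨ N = 3 ∨ N = 4 := by omega
    rcases this with rfl | rfl | rfl | rfl <;> norm_num

end Vale.Agent.P231.S3NT
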