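import Vale.Agent.P231.S3NT.Base

/-! Certificate tables: sign `+`, `j = -1`. -/

namespace Vale.Agent.P231.S3NT

def t_pn1_P0 : List (ℤ × ℤ × ℤ) := [
  (0, 0, -559), (1, 1, -362), (2, 2, -169), (3, 3, 0),
  (4, 4, 138), (5, 5, 245), (6, 6, 327), (7, 7, 390),
  (8, 8, 440), (9, 9, 479), (10, 10, 510), (11, 11, 536),
  (12, 12, 557), (13, 13, 575), (14, 14, 591), (15, 15, 604),
  (16, 16, 616), (17, 17, 626), (18, 18, 635), (19, 19, 643),
  (20, 20, 650), (21, 21, 657), (22, 22, 663), (23, 23, 668),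
  (24, 24, 673), (25, 25, 677), (26, 26, 681), (27, 27, 685),
  (28, 28, 689), (29, 29, 692), (30, 30, 695), (31, 31, 698),
  (32, 32, 701), (33, 33, 703), (34, 34, 705), (35, 35, 708),
  (36, 36, 710), (37, 37, 712), (38, 38, 713), (39, 39, 715),
  (40, 40, 717), (41, 41, 718), (42, 42, 720), (43, 43, 721),
  (44, 44, 723), (45, 45, 724), (46, 46, 725), (47, 47, 727),
  (48, 48, 728), (49, 49, 729), (50, 50, 730), (51, 51, 731),
  (52, 52, 732), (53, 53, 733), (54, 55, 734), (56, 56, 735),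
  (57, 57, 736), (58, 58, 737), (59, 60, 738), (61, 61, 739),
  (62, 63, 740), (64, 64, 741), (65, 66, 742), (67, 68, 743),
  (69, 70, 744), (71, 72, 745), (73, 74, 746), (75, 76, 747),
  (77, 79, 748), (80, 81, 749)]

theorem t_pn1_P0_ok : cover (cp (-1)) [3] t_pn1_P0 (0) (81) = true := by
  decide +kernel

def t_pn1_P1 : List (ℤ × ℤ × ℤ) := [
  (82, 84, 750), (85, 87, 751), (88, 90, 752), (91, 93, 753),
  (94, 97, 754), (98, 101, 755), (102, 105, 756), (106, 110, 757),
  (111, 115, 758), (116, 120, 759), (121, 127, 760), (128, 133, 761),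
  (134, 141, 762), (142, 149, 763), (150, 159, 764), (160, 170, 765),
  (171, 183, 766), (184, 197, 767), (198, 215, 768), (216, 235, 769),
  (236, 260, 770), (261, 291, 771), (292, 330, 772), (331, 381, 773),
  (382, 451, 774), (452, 552, 775), (553, 713, 776), (714, 1007, 777),
  (1008, 1711, 778), (1712, 5701, 779)]

theorem t_pn1_P1_ok : cover (cp (-1)) [3] t_pn1_P1 (82) (5701) = true := by
  decide +kernel

theorem tail_pn1_P_ok : tailOk (cp (-1)) (5702) (780) = true := by decide +kernel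

theorem r_pn1_P {M : ℤ} (h1 : 0 ≤ M) (hs : IsSquare ((cp (-1)).D M)) : M ∈ ([3] : List ℤ) := by
  rcases le_or_gt M (81) with h3 | h3
  · exact cover_spec t_pn1_P0_ok (by omega) h3 hs
  rcases le_or_gt M (5701) with h3 | h3
  · exact cover_spec t_pn1_P1_ok (by omega) h3 hs
  exact absurd hs (tailOk_spec tail_pn1_P_ok (by omega))

def t_pn1_N0 : List (ℤ × ℤ × ℤ) := [
  (1, 1, -739), (2, 2, -881), (3, 3, -970), (4, 4, -996),
  (5, 5, -952), (6, 6, -834), (7, 7, -639), (8, 8, -363),
  (9, 9, -3), (10, 10, 458), (11, 11, 0), (12, 12, 0),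
  (13, 13, 970), (14, 14, 949), (15, 15, 936), (16, 16, 925),
  (17, 17, 916), (18, 18, 908), (19, 19, 902), (20, 20, 896),
  (21, 21, 890), (22, 22, 885), (23, 23, 881), (24, 24, 877),
  (25, 25, 873), (26, 26, 870), (27, 27, 866), (28, 28, 863),
  (29, 29, 861), (30, 30, 858), (31, 31, 856), (32, 32, 853),
  (33, 33, 851), (34, 34, 849), (35, 35, 847), (36, 36, 845),
  (37, 37, 844), (38, 38, 842), (39, 39, 841), (40, 40, 839),
  (41, 41, 838), (42, 42, 836), (43, 43, 835), (44, 44, 834),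
  (45, 45, 833), (46, 46, 832), (47, 47, 831), (48, 48, 829),
  (49, 50, 828), (51, 51, 827), (52, 52, 826), (53, 53, 825),
  (54, 54, 824), (55, 56, 823), (57, 57, 822), (58, 58, 821),
  (59, 60, 820), (61, 62, 819), (63, 63, 818), (64, 65, 817),
  (66, 67, 816), (68, 69, 815), (70, 71, 814), (72, 73, 813),
  (74, 76, 812), (77, 78, 811), (79, 81, 810), (82, 84, 809),
  (85, 87, 808), (88, 90, 807)]

theorem t_pn1_N0_ok : cover (cp (-1)).neg [12] t_pn1_N0 (1) (90) = true := by
  decide +kernel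

def t_pn1_N1 : List (ℤ × ℤ × ℤ) := [
  (91, 94, 806), (95, 98, 805), (99, 102, 804), (103, 106, 803),
  (107, 111, 802), (112, 117, 801), (118, 123, 800), (124, 130, 799),
  (131, 137, 798), (138, 146, 797), (147, 155, 796), (156, 166, 795),
  (167, 178, 794), (179, 193, 793), (194, 209, 792), (210, 229, 791),
  (230, 253, 790), (254, 283, 789), (284, 321, 788), (322, 370, 787),
  (371, 437, 786), (438, 533, 785), (534, 682, 784), (683, 948, 783),
  (949, 1553, 782), (1554, 4273, 781)]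

theorem t_pn1_N1_ok : cover (cp (-1)).neg [12] t_pn1_N1 (91) (4273) = true := by
  decide +kernel

theorem tail_pn1_N_ok : tailOk (cp (-1)).neg (4274) (780) = true := by decide +kernel

theorem r_pn1_N {M : ℤ} (h1 : 1 ≤ M) (hs : IsSquare ((cp (-1)).neg.D M)) : M ∈ ([12] : List ℤ) := by
  rcases le_or_gt M (90) with h3 | h3
  · exact cover_spec t_pn1_N0_ok (by omega) h3 hs
  rcases le_or_gt M (4273) with h3 | h3
  · exact cover_spec t_pn1_N1_ok (by omega) h3 hs
  exact absurd hs (tailOk_spec tail_pn1_N_ok (by omega))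

theorem sq_pn1 {M : ℤ} (hs : IsSquare ((cp (-1)).D M)) : M = -12 ∨ M = 3 := by
  rcases le_or_gt 0 M with h | h
  · right
    simpa using r_pn1_P h hs
  · have h2 : IsSquare ((cp (-1)).neg.D (-M)) := by rw [Co.D_neg, neg_neg]; exact hs
    have h3 := r_pn1_N (M := -M) (by omega) h2
    simp only [List.mem_cons, List.not_mem_nil, or_false] at h3
    omega

end Vale.Agent.P231.S3NT
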